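import Vale.Agent.P203.Apt.Convex

/-! P203, block FOLD-Z: zero vertices in an apartment.

`neg_nbr` (X5): in an apartment with a negative vertex every zero vertex has a negative neighbour.
`zero_prop` (X3z): if the function is nonnegative then a property of vertices that spreads along
zero vertices of a common chamber spreads between any two zero vertices which are not antipodal. -/

set_option linter.all false

namespace Vale.Agent.P203.FoldZ

open Vale.Agent.P203.Cox Vale.Agent.P203.Apt

variable {B : Type*} {W : Type*} [Group W] {M : CoxeterMatrix B} {cs : CoxeterSystem M W}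
variable {U : Finset B}

theorem x1 {ψ : W → B → ℝ} (h : IsConv cs U ψ) {w v : W} (hw : w ∈ parab cs (U : Set B))
    (hv : v ∈ parab cs (U : Set B)) {t : B} (ht : t ∈ U) :
    ∑ q ∈ U, (act cs v⁻¹ (Finsupp.single q 1)) t * ψ w q ≤ ψ (w * v) t := by
  have h1 := grad_le h hw (inv_mem hv) ht
  rw [inv_inv] at h1
  refine le_trans (le_of_eq ?_) h1
  rw [(grad_supp (U := U) ψ w).sum, map_sum, Finsupp.finsetSum_apply]
  refine Finset.sum_congr rfl fun q hq => ?_
  rw [map_smul, Finsupp.smul_apply, smul_eq_mul, grad_apply ψ w hq, mul_comm]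

theorem inv_par [DecidableEq B] {ψ : W → B → ℝ} (h : IsConv cs U ψ) {w u : W}
    (hw : w ∈ parab cs (U : Set B)) {t : B} (ht : t ∈ U)
    (hu : u ∈ parab cs ((U.erase t : Finset B) : Set B)) : ψ (w * u) t = ψ w t := by
  have hle : parab cs ((U.erase t : Finset B) : Set B) ≤ parab cs (U : Set B) :=
    parab_mono (by exact_mod_cast Finset.erase_subset t U)
  obtain ⟨ω, hω, rfl⟩ := exists_word_of_mem_parab hu
  clear hu
  induction ω generalizing w with
  | nil => simp
  | cons i ω ih =>
    have hi : i ∈ U.erase t := by exact_mod_cast hω i (by simp)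
    have hiU : i ∈ U := Finset.mem_of_mem_erase hi
    rw [cs.wordProd_cons, ← mul_assoc, ih (mul_mem hw (simple_mem_parab (by exact_mod_cast hiU)))
      (fun j hj => hω j (by simp [hj]))]
    exact h.inv w hw i hiU t ht (Finset.ne_of_mem_erase hi)

theorem act_inv_simple_mul (q : B) (v : W) (y : VSp B) :
    act cs v⁻¹ y = act cs (cs.simple q * v)⁻¹ (act cs (cs.simple q) y) := by
  rw [← act_mul_apply]
  congr 1
  rw [mul_inv_rev, cs.inv_simple, mul_assoc, cs.simple_mul_simple_self, mul_one]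

theorem act_simple_single (q i : B) : act cs (cs.simple q) (Finsupp.single i (1 : ℝ)) =
    Finsupp.single i 1 - gram M q i • Finsupp.single q 1 := by
  rw [act_simple, datum_act]

theorem act_inv_single_eq (q i : B) (v : W) (t : B) :
    (act cs v⁻¹ (Finsupp.single i (1 : ℝ))) t =
      (act cs (cs.simple q * v)⁻¹ (Finsupp.single i 1)) t -
        gram M q i * (act cs (cs.simple q * v)⁻¹ (Finsupp.single q 1)) t := by
  rw [act_inv_simple_mul q v, act_simple_single, map_sub, map_smul]
  simp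

theorem NN_inv_of_lt {v : W} {q : B} (h : cs.length v < cs.length (cs.simple q * v)) :
    NN (act cs v⁻¹ (Finsupp.single q 1)) := by
  apply act_single_pos
  rw [show v⁻¹ * cs.simple q = (cs.simple q * v)⁻¹ by rw [mul_inv_rev, cs.inv_simple],
    cs.length_inv, cs.length_inv]
  exact h

theorem NN_neg_inv_of_gt {v : W} {q : B} (h : cs.length (cs.simple q * v) < cs.length v) :
    NN (-(act cs v⁻¹ (Finsupp.single q 1))) := by
  apply act_single_neg
  rw [show v⁻¹ * cs.simple q = (cs.simple q * v)⁻¹ by rw [mul_inv_rev, cs.inv_simple],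
    cs.length_inv, cs.length_inv]
  exact h

theorem lt_or_gt_simple_mul (v : W) (q : B) : cs.length v < cs.length (cs.simple q * v) ∨
    cs.length (cs.simple q * v) < cs.length v := by
  rcases cs.length_simple_mul v q with h | h
  · exact Or.inl (by omega)
  · exact Or.inr (by omega)

theorem exists_left_desc {v : W} (hv : v ∈ parab cs (U : Set B)) (h1 : v ≠ 1) :
    ∃ q ∈ U, cs.length (cs.simple q * v) < cs.length v := by
  obtain ⟨q, hq, hlt⟩ := exists_desc_parab (inv_mem hv) (by simpa using h1)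
  refine ⟨q, hq, ?_⟩
  rw [show v⁻¹ * cs.simple q = (cs.simple q * v)⁻¹ by rw [mul_inv_rev, cs.inv_simple],
    cs.length_inv, cs.length_inv] at hlt
  exact hlt

/-- (X5) -/
theorem neg_nbr [DecidableEq B] {ψ : W → B → ℝ} (h : IsConv cs U ψ) {t t₁ : B} (ht : t ∈ U)
    (ht₁ : t₁ ∈ U) (n : ℕ) : ∀ v : W, cs.length v = n → v ∈ parab cs (U : Set B) → ∀ w : W,
      w ∈ parab cs (U : Set B) → ψ w t = 0 → ψ (w * v) t₁ < 0 →
      ∃ u ∈ parab cs ((U.erase t : Finset B) : Set B), ∃ r ∈ U.erase t, ψ (w * u) r < 0 := by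
  induction n using Nat.strong_induction_on with
  | _ n ih =>
  intro v hn hv w hw h0 h1
  by_cases hd : ∃ q ∈ U.erase t, cs.length (cs.simple q * v) < cs.length v
  · obtain ⟨q, hq, hlt⟩ := hd
    have hqU : q ∈ U := Finset.mem_of_mem_erase hq
    have hsq : cs.simple q ∈ parab cs (U : Set B) := simple_mem_parab (by exact_mod_cast hqU)
    obtain ⟨u, hu, r, hr, hlt'⟩ := ih _ (hn ▸ hlt) (cs.simple q * v) rfl (mul_mem hsq hv)
      (w * cs.simple q) (mul_mem hw hsq)
      (by rw [h.inv w hw q hqU t ht (Finset.ne_of_mem_erase hq)]; exact h0)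
      (by rwa [show w * cs.simple q * (cs.simple q * v) = w * v by
        rw [mul_assoc, ← mul_assoc (cs.simple q), cs.simple_mul_simple_self, one_mul]])
    exact ⟨cs.simple q * u, mul_mem (simple_mem_parab (by exact_mod_cast hq)) hu, r, hr,
      by rwa [← mul_assoc]⟩
  · push Not at hd
    have hx := x1 h hw hv ht₁
    have hs : ∑ q ∈ U, (act cs v⁻¹ (Finsupp.single q 1)) t₁ * ψ w q < 0 := lt_of_le_of_lt hx h1
    obtain ⟨q, hq, hlt⟩ := Finset.exists_lt_of_sum_lt (f := fun q =>
      (act cs v⁻¹ (Finsupp.single q 1)) t₁ * ψ w q) (g := fun _ => (0 : ℝ)) (s := U)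
      (by simpa using hs)
    have hqt : q ≠ t := by
      rintro rfl
      simp [h0] at hlt
    have hqe : q ∈ U.erase t := Finset.mem_erase.2 ⟨hqt, hq⟩
    have hpos : 0 ≤ (act cs v⁻¹ (Finsupp.single q 1)) t₁ :=
      NN_inv_of_lt ((lt_or_gt_simple_mul v q).resolve_right (not_lt.2 (hd q hqe))) t₁
    refine ⟨1, one_mem _, q, hqe, ?_⟩
    rw [mul_one]
    by_contra hcon
    have := mul_nonneg hpos (not_lt.1 hcon)
    linarith

/-- (X3z) -/
theorem zero_prop [DecidableEq B] {ψ : W → B → ℝ} (h : IsConv cs U ψ)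
    (hnn : ∀ w ∈ parab cs (U : Set B), ∀ t ∈ U, 0 ≤ ψ w t) (Q : W → B → Prop)
    (hQ1 : ∀ w ∈ parab cs (U : Set B), ∀ t ∈ U, ∀ t' ∈ U, ψ w t = 0 → ψ w t' = 0 →
      Q w t → Q w t')
    (hQ2 : ∀ w ∈ parab cs (U : Set B), ∀ t ∈ U,
      ∀ u ∈ parab cs ((U.erase t : Finset B) : Set B), Q w t → Q (w * u) t) (n : ℕ) :
    ∀ v : W, cs.length v = n → v ∈ parab cs (U : Set B) → ∀ w ∈ parab cs (U : Set B),
      ∀ t ∈ U, ∀ t' ∈ U, ψ w t = 0 → ψ (w * v) t' = 0 → Q w t →
      Q (w * v) t' ∨ ((∀ q ∈ U.erase t, (act cs v⁻¹ (Finsupp.single q (1 : ℝ))) t' = 0) ∧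
        (act cs v⁻¹ (Finsupp.single t (1 : ℝ))) t' < 0) := by
  induction n using Nat.strong_induction_on with
  | _ n ih =>
  intro v hn hv w hw t ht t' ht' h0 h0' hQ
  by_cases hv1 : v = 1
  · subst hv1
    rw [mul_one] at h0' ⊢
    exact Or.inl (hQ1 w hw t ht t' ht' h0 h0' hQ)
  by_cases hd : ∃ q ∈ U.erase t, cs.length (cs.simple q * v) < cs.length v
  · obtain ⟨q, hq, hlt⟩ := hd
    have hqU : q ∈ U := Finset.mem_of_mem_erase hq
    have hsq : cs.simple q ∈ parab cs (U : Set B) := simple_mem_parab (by exact_mod_cast hqU)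
    have e : w * cs.simple q * (cs.simple q * v) = w * v := by
      rw [mul_assoc, ← mul_assoc (cs.simple q), cs.simple_mul_simple_self, one_mul]
    rcases ih _ (hn ▸ hlt) (cs.simple q * v) rfl (mul_mem hsq hv) (w * cs.simple q)
      (mul_mem hw hsq) t ht t' ht'
      (by rw [h.inv w hw q hqU t ht (Finset.ne_of_mem_erase hq)]; exact h0)
      (by rw [e]; exact h0') (hQ2 w hw t ht _ (simple_mem_parab (by exact_mod_cast hq)) hQ)
      with h1 | ⟨h1, h2⟩
    · rw [e] at h1
      exact Or.inl h1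
    · refine Or.inr ⟨fun q' hq' => ?_, ?_⟩
      · rw [act_inv_single_eq q, h1 q' hq', h1 q hq]
        ring
      · rw [act_inv_single_eq q, h1 q hq]
        linarith
  · push Not at hd
    obtain ⟨q₀, hq₀, hlt₀⟩ := exists_left_desc hv hv1
    have hq₀t : q₀ = t := by
      by_contra hne
      exact absurd hlt₀ (not_lt.2 (hd q₀ (Finset.mem_erase.2 ⟨hne, hq₀⟩)))
    subst hq₀t
    have hpos : ∀ q ∈ U.erase q₀, 0 ≤ (act cs v⁻¹ (Finsupp.single q (1 : ℝ))) t' := fun q hq =>
      NN_inv_of_lt ((lt_or_gt_simple_mul v q).resolve_right (not_lt.2 (hd q hq))) t'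
    have hx := x1 h hw hv ht'
    rw [h0', ← Finset.add_sum_erase U _ ht, h0, mul_zero, zero_add] at hx
    have hterm : ∀ q ∈ U.erase q₀, 0 ≤ (act cs v⁻¹ (Finsupp.single q (1 : ℝ))) t' * ψ w q :=
      fun q hq => mul_nonneg (hpos q hq) (hnn w hw q (Finset.mem_of_mem_erase hq))
    have hz := (Finset.sum_eq_zero_iff_of_nonneg hterm).1
      (le_antisymm hx (Finset.sum_nonneg hterm))
    by_cases hq : ∃ q ∈ U.erase q₀, 0 < (act cs v⁻¹ (Finsupp.single q (1 : ℝ))) t'
    · obtain ⟨q, hq, hqpos⟩ := hq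
      have hqU : q ∈ U := Finset.mem_of_mem_erase hq
      have hzq : ψ w q = 0 := by
        rcases mul_eq_zero.1 (hz q hq) with h' | h'
        · exact absurd h' hqpos.ne'
        · exact h'
      have hne : q₀ ≠ q := (Finset.ne_of_mem_erase hq).symm
      have hQq : Q w q := hQ1 w hw q₀ ht q hqU h0 hzq hQ
      have hs₀ : cs.simple q₀ ∈ parab cs (U : Set B) := simple_mem_parab (by exact_mod_cast ht)
      have e : w * cs.simple q₀ * (cs.simple q₀ * v) = w * v := by
        rw [mul_assoc, ← mul_assoc (cs.simple q₀), cs.simple_mul_simple_self, one_mul]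
      have hq₀e : q₀ ∈ U.erase q := Finset.mem_erase.2 ⟨hne, ht⟩
      rcases ih _ (hn ▸ hlt₀) (cs.simple q₀ * v) rfl (mul_mem hs₀ hv) (w * cs.simple q₀)
        (mul_mem hw hs₀) q hqU t' ht'
        (by rw [h.inv w hw q₀ ht q hqU hne]; exact hzq)
        (by rw [e]; exact h0')
        (hQ2 w hw q hqU _ (simple_mem_parab (by exact_mod_cast hq₀e)) hQq) with h1 | ⟨h1, h2⟩
      · rw [e] at h1
        exact Or.inl h1
      · exfalso
        rw [act_inv_single_eq q₀, h1 q₀ hq₀e] at hqpos
        linarith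
    · push Not at hq
      have hz' : ∀ q ∈ U.erase q₀, (act cs v⁻¹ (Finsupp.single q (1 : ℝ))) t' = 0 :=
        fun q hq' => le_antisymm (hq q hq') (hpos q hq')
      refine Or.inr ⟨hz', lt_of_le_of_ne ?_ ?_⟩
      · have := NN_neg_inv_of_gt hlt₀ t'
        simp only [Finsupp.coe_neg, Pi.neg_apply] at this
        linarith
      · intro hcon
        have hsupp : Supp U (act cs v (Finsupp.single t' (1 : ℝ))) :=
          (supp_single ht').act hv
        have h1 : act cs v⁻¹ (act cs v (Finsupp.single t' (1 : ℝ))) = Finsupp.single t' 1 :=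
          act_inv_apply_self _ _
        have h2 := congrArg (fun y => y t') h1
        simp only [Finsupp.single_eq_same] at h2
        rw [hsupp.sum, map_sum, Finsupp.finsetSum_apply] at h2
        rw [Finset.sum_eq_zero] at h2
        · exact zero_ne_one h2
        · intro q hqU
          rw [map_smul, Finsupp.smul_apply, smul_eq_mul]
          by_cases hqt : q = q₀
          · subst hqt
            rw [hcon, mul_zero]
          · rw [hz' q (Finset.mem_erase.2 ⟨hqt, hqU⟩), mul_zero]

end Vale.Agent.P203.FoldZ
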