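import Vale.Agent.P203.Fold.Conn
import Vale.Agent.P203.Fold.ZApt955

/-! P203, block FOLD-Z: if `{ψ < 0}` is nonempty then every zero vertex has a negative neighbour
(`ZStmt`). -/

set_option linter.all false

namespace Vale.Agent.P203.FoldZ

open Vale.Agent.P203 Vale.Agent.P203.Cox Vale.Agent.P203.Spec Vale.Agent.P203.FoldL1

variable {S : Type} [Fintype S] [DecidableEq S] {M : CoxeterMatrix S}

/-! ### good vertices -/

/-- the vertex of type `t` of the chamber `g` has a negative neighbour -/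
def Good (K : KeyData M) (U : Finset S) (n : ℤ) (ρ : S → ℝ) (t : S) (g : ArtinGroup M) :
    Prop := ∃ q ∈ U.erase t, ∃ e ∈ AP M (U.erase t), K.Neg n ρ q (g * e)

theorem Good.mul {K : KeyData M} {U : Finset S} {n : ℤ} {ρ : S → ℝ} {t : S}
    {g : ArtinGroup M} (h : Good K U n ρ t g) {x : ArtinGroup M} (hx : x ∈ AP M (U.erase t)) :
    Good K U n ρ t (g * x) := by
  obtain ⟨q, hq, e, he, hn⟩ := h
  refine ⟨q, hq, x⁻¹ * e, mul_mem (inv_mem hx) he, ?_⟩
  rwa [show g * x * (x⁻¹ * e) = g * e by group]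

theorem tl_mul_mem {T : Finset S} {u : M.Group} (hu : u ∈ WP M T) (w : M.Group) :
    ∃ x ∈ AP M T, tl M (w * u) = tl M w * x := by
  obtain ⟨ω, hω, rfl⟩ := exists_word_of_mem_parab (cs := M.toCoxeterSystem) (T := (T : Set S)) hu
  clear hu
  induction ω generalizing w with
  | nil => exact ⟨1, one_mem _, by simp⟩
  | cons i ω ih =>
    have hi : i ∈ T := by exact_mod_cast hω i (by simp)
    obtain ⟨x, hx, he⟩ := ih (w * M.simple i) (fun j hj => hω j (by simp [hj]))
    rw [M.toCoxeterSystem.wordProd_cons, ← mul_assoc]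
    change ∃ x ∈ AP M T, tl M (w * M.simple i * _) = _
    rw [he]
    rcases Gar.len_mul_simple w i with h | h
    · have e : tl M (w * M.simple i) = tl M w * artinGen M i := Gar.tl_mul_simple (by omega)
      exact ⟨artinGen M i * x, mul_mem (gen_mem_AP hi) hx, by rw [e, mul_assoc]⟩
    · have e : tl M w = tl M (w * M.simple i) * artinGen M i := Gar.tl_eq_mul_of_desc (by omega)
      refine ⟨(artinGen M i)⁻¹ * x, mul_mem (inv_mem (gen_mem_AP hi)) hx, ?_⟩
      rw [e]
      group

theorem Good.tl_mul {K : KeyData M} {U : Finset S} {n : ℤ} {ρ : S → ℝ} {t : S}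
    {g : ArtinGroup M} {w u : M.Group} (h : Good K U n ρ t (g * tl M w))
    (hu : u ∈ WP M (U.erase t)) : Good K U n ρ t (g * tl M (w * u)) := by
  obtain ⟨x, hx, he⟩ := tl_mul_mem hu w
  rw [he, ← mul_assoc]
  exact h.mul hx

/-! ### links -/

theorem gram_eq_zero {r s : S} (h : M r s = 2) : gram M r s = 0 := by simp [gram, h]

theorem gram_ne_zero {r s : S} (h : Adj M r s) : gram M r s ≠ 0 := by
  obtain ⟨hrs, h2⟩ := h
  have h1 : M r s ≠ 1 := M.off_diagonal r s hrs
  unfold gram
  by_cases h0 : M r s = 0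
  · rw [if_pos h0]; norm_num
  · rw [if_neg h0]
    have h3 : 3 ≤ M r s := by omega
    have h3' : (3 : ℝ) ≤ (M r s : ℝ) := by exact_mod_cast h3
    have hpos : 0 < Real.cos (Real.pi / (M r s : ℝ)) := by
      apply Real.cos_pos_of_mem_Ioo
      constructor
      · have : 0 < Real.pi / (M r s : ℝ) := by positivity
        linarith [Real.pi_pos]
      · rw [div_lt_iff₀ (by linarith)]
        nlinarith [Real.pi_pos]
    intro h
    linarith [h]

theorem link_class (K : KeySys M) {U : Finset S} {n : ℤ} {ρ : S → ℝ} {g : ArtinGroup M}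
    (h : K.IsClass U n ρ g) {t : S} (ht : t ∈ U) (hz : K.Zero n ρ t g) :
    K.IsClass (U.erase t) n ρ g where
  ext := by
    intro r hr
    have hr' := Finset.mem_erase.1 hr
    refine ⟨fun s hs hrs => ?_, (h.ext r hr'.2).2⟩
    by_cases hst : s = t
    · subst hst
      exact hz.1
    · exact (h.ext r hr'.2).1 s (fun h' => hs (Finset.mem_erase.2 ⟨hst, h'⟩)) hrs
  slack_nonneg := by
    intro r hr
    have hr' := Finset.mem_erase.1 hr
    have h1 := h.slack_nonneg r hr'.2
    have e : K.slack (U.erase t) n ρ g r = K.slack U n ρ g r := by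
      unfold KeyData.slack KeyData.wext
      rw [Finset.compl_erase, Finset.sum_insert (by simpa using ht),
        ← Finset.add_sum_erase U (fun q => gram M r q * ρ q) ht]
      by_cases hg : gram M r t = 0
      · rw [hg]; ring
      · have hadj : Adj M r t := ⟨hr'.1, fun h2 => hg (gram_eq_zero h2)⟩
        rw [hz.2]
        ring
    rw [e]
    exact h1

/-- the statement (Z) for one subset -/
def ZU (K : KeySys M) (U : Finset S) : Prop :=
  ∀ (n : ℤ) (ρ : S → ℝ) (a : ArtinGroup M), Spherical M U →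
    K.IsClass U n ρ a → ∀ s ∈ U, ∀ t ∈ U, ∀ b ∈ AP M U, ∀ c ∈ AP M U,
    K.Neg n ρ s (a * b) → K.Zero n ρ t (a * c) → Good K.toKeyData U n ρ t (a * c)

theorem link_step (K : KeySys M) {U : Finset S} {n : ℤ} {ρ : S → ℝ} {g : ArtinGroup M}
    (hU : Spherical M U) (h : K.IsClass U n ρ g) {t t' : S} (IH : ZU K (U.erase t)) (ht : t ∈ U)
    (ht' : t' ∈ U) (hne : t' ≠ t) (hz : K.Zero n ρ t g) (hz' : K.Zero n ρ t' g)
    (hg : Good K.toKeyData U n ρ t g) : Good K.toKeyData U n ρ t' g := by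
  obtain ⟨q, hq, e, he, hn⟩ := hg
  obtain ⟨q', hq', e', he', hn'⟩ := IH n ρ g (hU.subset (Finset.erase_subset _ _))
    (link_class K h ht hz) q hq t' (Finset.mem_erase.2 ⟨hne, ht'⟩) e he 1 (one_mem _) hn
    (by rwa [mul_one])
  rw [mul_one] at hn'
  have hsub : (U.erase t).erase t' ⊆ U.erase t' := by
    rw [Finset.erase_right_comm]
    exact Finset.erase_subset _ _
  exact ⟨q', hsub hq', e', AP_mono' hsub he', hn'⟩

/-- (X5) in the apartment of `b ∈ D` -/
theorem good_of_neg (K : KeySys M) {U : Finset S} {n : ℤ} {ρ : S → ℝ} {b : ArtinGroup M}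
    (h : K.IsClass U n ρ b) (hD : K.InD U n b) {w w₁ : M.Group} (hw : w ∈ WP M U)
    (hw₁ : w₁ ∈ WP M U) {t t₁ : S} (ht : t ∈ U) (ht₁ : t₁ ∈ U)
    (h0 : apt K.toKeyData n ρ b w t = 0) (h1 : apt K.toKeyData n ρ b w₁ t₁ < 0) :
    Good K.toKeyData U n ρ t (b * tl M w) := by
  obtain ⟨u, hu, r, hr, hlt⟩ := neg_nbr (apt_conv K h hD) ht ht₁ _ (w⁻¹ * w₁) rfl
    (mul_mem (inv_mem hw) hw₁) w hw h0 (by rwa [mul_inv_cancel_left])
  obtain ⟨x, hx, he⟩ := tl_mul_mem (T := U.erase t) hu w
  refine ⟨r, hr, x, hx, ?_⟩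
  rw [mul_assoc, ← he]
  have huU : u ∈ WP M U := by
    have hle : WP M (U.erase t) ≤ WP M U := Subgroup.closure_mono
      (Set.image_mono (by exact_mod_cast Finset.erase_subset t U))
    exact hle hu
  exact (Neg_iff_apt K h hD (mul_mem hw huU) (Finset.mem_of_mem_erase hr)).2 hlt

/-! ### the antipodal case -/

section antipodal

variable {cs : CoxeterSystem M M.Group}

/-- `w'⁻¹ s_x w'` acts as the reflection in `β = w'⁻¹ e_x` -/
theorem act_refl_apply (x : S) (w' : M.Group) (y : VSp S) :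
    act M.toCoxeterSystem (w'⁻¹ * (M.simple x * w')) y = y -
      form M (act M.toCoxeterSystem w'⁻¹ (Finsupp.single x 1)) y •
        act M.toCoxeterSystem w'⁻¹ (Finsupp.single x 1) := by
  have h := act_conj (cs := M.toCoxeterSystem) w'⁻¹ x y
  rw [inv_inv, mul_assoc] at h
  exact h

theorem antipodal_data {U : Finset S} {x t : S} (hx : x ∈ U) (ht : t ∈ U) {w' : M.Group}
    (hw' : w' ∈ WP M U)
    (hlt : len M w' < len M (M.simple x * w'))
    (hA1 : ∀ q ∈ U.erase t, (act M.toCoxeterSystem (w'⁻¹ * (M.simple x * w'))⁻¹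
      (Finsupp.single q (1 : ℝ))) t = 0)
    (hA2 : (act M.toCoxeterSystem (w'⁻¹ * (M.simple x * w'))⁻¹
      (Finsupp.single t (1 : ℝ))) t < 0) :
    ∃ k : ℝ, 0 < k ∧ ∀ s ∈ U, (act M.toCoxeterSystem (M.simple x * w')⁻¹
      (Finsupp.single s 1)) t = - k * gram M x s := by
  set cs := M.toCoxeterSystem with hcs
  set β := act cs w'⁻¹ (Finsupp.single x (1 : ℝ)) with hβ
  have hinv : (w'⁻¹ * (M.simple x * w'))⁻¹ = w'⁻¹ * (M.simple x * w') := by
    have : (M.simple x)⁻¹ = M.simple x := cs.inv_simple x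
    rw [mul_inv_rev, mul_inv_rev, inv_inv, this, mul_assoc]
  rw [hinv] at hA2
  simp only [hinv] at hA1
  have hβNN : NN β := NN_inv_of_lt (cs := cs) hlt
  rw [hcs, act_refl_apply] at hA2
  simp only [Finsupp.coe_sub, Finsupp.coe_smul, Pi.sub_apply, Pi.smul_apply, smul_eq_mul,
    Finsupp.single_eq_same] at hA2
  rw [← hcs, ← hβ] at hA2
  have hβt : β t ≠ 0 := by
    intro h0
    rw [h0, mul_zero] at hA2
    linarith
  have hβt' : 0 < β t := lt_of_le_of_ne (hβNN t) (Ne.symm hβt)
  have horth : ∀ q ∈ U.erase t, form M β (Finsupp.single q 1) = 0 := by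
    intro q hq
    have h1 := hA1 q hq
    rw [hcs, act_refl_apply] at h1
    simp only [Finsupp.coe_sub, Finsupp.coe_smul, Pi.sub_apply, Pi.smul_apply, smul_eq_mul] at h1
    rw [← hcs, ← hβ, Finsupp.single_eq_of_ne (Finset.ne_of_mem_erase hq).symm] at h1
    rcases mul_eq_zero.1 (show form M β (Finsupp.single q 1) * β t = 0 by linarith) with h | h
    · exact h
    · exact absurd h hβt
  -- `gram x s = (w'⁻¹ e_s)_t * (β, e_t)`
  have key : ∀ s ∈ U, gram M x s = (act cs w'⁻¹ (Finsupp.single s (1 : ℝ))) t *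
      form M β (Finsupp.single t 1) := by
    intro s hs
    have h1 : form M β (act cs w'⁻¹ (Finsupp.single s (1 : ℝ))) = gram M x s := by
      rw [hβ, form_act, datum_act]
    have hsupp : Apt.Supp U (act cs w'⁻¹ (Finsupp.single s (1 : ℝ))) :=
      (Apt.supp_single hs).act (inv_mem hw')
    rw [← h1]
    conv_lhs => rw [hsupp.sum]
    rw [map_sum, Finset.sum_eq_single t]
    · rw [map_smul, smul_eq_mul]
    · intro q hq hqt
      rw [map_smul, horth q (Finset.mem_erase.2 ⟨hqt, hq⟩), smul_zero]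
    · intro h; exact absurd ht h
  have h2 : (2 : ℝ) = β t * form M β (Finsupp.single t 1) := by
    have := key x hx
    rwa [gram_self, ← hβ] at this
  refine ⟨β t / 2, by positivity, fun s hs => ?_⟩
  have e : (M.simple x * w')⁻¹ = w'⁻¹ * M.simple x := by
    have : (M.simple x)⁻¹ = M.simple x := cs.inv_simple x
    rw [mul_inv_rev, this]
  have e2 : act cs (w'⁻¹ * M.simple x) (Finsupp.single s (1 : ℝ)) =
      act cs w'⁻¹ (Finsupp.single s 1) - gram M x s • β := by
    rw [act_mul_apply]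
    change act cs w'⁻¹ (act cs (cs.simple x) (Finsupp.single s 1)) = _
    rw [act_simple_single, map_sub, map_smul]
  rw [e, e2]
  simp only [Finsupp.coe_sub, Finsupp.coe_smul, Pi.sub_apply, Pi.smul_apply, smul_eq_mul]
  have h3 := key s hs
  have h4 : (act cs w'⁻¹ (Finsupp.single s (1 : ℝ))) t = gram M x s * (β t / 2) := by
    have hF : form M β (Finsupp.single t 1) ≠ 0 := by
      intro h0
      rw [h0, mul_zero] at h2
      norm_num at h2
    rw [h3]
    have : (act cs w'⁻¹ (Finsupp.single s (1 : ℝ))) t * form M β (Finsupp.single t 1) *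
        (β t / 2) = (act cs w'⁻¹ (Finsupp.single s (1 : ℝ))) t *
        ((β t * form M β (Finsupp.single t 1)) / 2) := by ring
    rw [this, ← h2]
    ring
  rw [h4]
  ring

end antipodal

/-- `U` is connected in the Coxeter graph (form used in `KeySys.KK`) -/
def Cn (M : CoxeterMatrix S) (T : Finset S) : Prop :=
  ∀ P : Finset S, P ⊆ T → P.Nonempty → P ≠ T → ∃ r ∈ P, ∃ s ∈ T, s ∉ P ∧ Adj M r s

/-- main induction for connected `U` -/
theorem main_conn (K : KeySys M) {U : Finset S} {n : ℤ} {ρ : S → ℝ} {a₀ : ArtinGroup M}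
    (hU : Spherical M U) (hcl0 : K.IsClass U n ρ a₀) (hD0 : K.InD U n a₀) (hconn : Cn M U)
    (IH : ∀ t ∈ U, ZU K (U.erase t)) {w₁ : M.Group} (hw₁ : w₁ ∈ WP M U) {t₁ : S} (ht₁ : t₁ ∈ U)
    (hneg : apt K.toKeyData n ρ a₀ w₁ t₁ < 0) {g : ArtinGroup M} (hg : g ∈ PM M U) :
    ∀ w ∈ WP M U, ∀ t ∈ U, apt K.toKeyData n ρ (a₀ * g) w t = 0 →
      Good K.toKeyData U n ρ t (a₀ * g * tl M w) := by
  refine Gar.PM_induction_right (T := (U : Set S)) (p := fun g => ∀ w ∈ WP M U, ∀ t ∈ U,
    apt K.toKeyData n ρ (a₀ * g) w t = 0 → Good K.toKeyData U n ρ t (a₀ * g * tl M w)) ?_ ?_ hg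
  · intro w hw t ht h0
    rw [mul_one] at h0 ⊢
    exact good_of_neg K hcl0 hD0 hw hw₁ ht ht₁ h0 hneg
  · intro b hb x hx ih
    have hxU : x ∈ U := by exact_mod_cast hx
    rw [← mul_assoc]
    set c := a₀ * b with hc
    have hclc : K.IsClass U n ρ c := IsClass_inv_AP K hcl0 (PM_le_AP' hb)
    have hDc : K.InD U n c := InD_PM K hcl0 hD0 hb
    have hcl1 : K.IsClass U n ρ (c * artinGen M x) := IsClass_inv_AP K hclc (gen_mem_AP hxU)
    have hD1 : K.InD U n (c * artinGen M x) := InD_gen K hclc hDc hxU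
    have hxW : M.simple x ∈ WP M U := Subgroup.subset_closure ⟨x, by exact_mod_cast hxU, rfl⟩
    -- vertices on the near side
    have near : ∀ w ∈ WP M U, ∀ t ∈ U, len M w < len M (M.simple x * w) →
        apt K.toKeyData n ρ (c * artinGen M x) w t = 0 →
        Good K.toKeyData U n ρ t (c * artinGen M x * tl M w) := by
      intro w hw t ht hlt h0
      have e : tl M (M.simple x * w) = artinGen M x * tl M w := Gar.tl_simple_mul hlt
      have e2 : c * artinGen M x * tl M w = c * tl M (M.simple x * w) := by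
        rw [e, ← mul_assoc]
      rw [e2]
      refine ih _ (mul_mem hxW hw) t ht ?_
      unfold apt at h0 ⊢
      rw [← e2]
      exact h0
    intro w hw t ht h0
    rcases Gar.len_simple_mul w x with hl | hl
    · exact near w hw t ht (by omega) h0
    · set w' := M.simple x * w with hw'
      have hxx : M.simple x * M.simple x = 1 := M.toCoxeterSystem.simple_mul_simple_self x
      have hww : w = M.simple x * w' := by rw [hw', ← mul_assoc, hxx, one_mul]
      have hw'U : w' ∈ WP M U := mul_mem hxW hw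
      have hlt : len M w' < len M (M.simple x * w') := by rw [← hww]; omega
      by_cases hn1 : ∃ w₂ ∈ WP M U, ∃ t₂ ∈ U, apt K.toKeyData n ρ (c * artinGen M x) w₂ t₂ < 0
      · obtain ⟨w₂, hw₂, t₂, ht₂, hlt₂⟩ := hn1
        exact good_of_neg K hcl1 hD1 hw hw₂ ht ht₂ h0 hlt₂
      push Not at hn1
      -- fold
      have h3 := K.F2 U n c hclc.ext hDc x hxU (tl M w') (tl_mem_PM' hw'U) t ht
      have etl : tl M w = artinGen M x * tl M w' := by
        conv_lhs => rw [hww]
        exact Gar.tl_simple_mul hlt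
      have h0' : apt K.toKeyData n ρ (c * artinGen M x) w' t = 0 := by
        refine le_antisymm ?_ (hn1 w' hw'U t ht)
        rw [← h0]
        unfold apt
        rw [etl, ← mul_assoc]
        linarith
      have hgood' : Good K.toKeyData U n ρ t (c * artinGen M x * tl M w') :=
        near w' hw'U t ht hlt h0'
      have zero_iff : ∀ v ∈ WP M U, ∀ s ∈ U, apt K.toKeyData n ρ (c * artinGen M x) v s = 0 →
          K.Zero n ρ s (c * artinGen M x * tl M v) := fun v hv s hs h =>
        (Zero_iff_apt K hcl1 hD1 hv hs).2 h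
      have hQ1 : ∀ v ∈ parab M.toCoxeterSystem (U : Set S), ∀ s ∈ U, ∀ s' ∈ U,
          apt K.toKeyData n ρ (c * artinGen M x) v s = 0 →
          apt K.toKeyData n ρ (c * artinGen M x) v s' = 0 →
          Good K.toKeyData U n ρ s (c * artinGen M x * tl M v) →
          Good K.toKeyData U n ρ s' (c * artinGen M x * tl M v) := by
        intro v hv s hs s' hs' hz hz' hq
        by_cases hss : s' = s
        · rw [hss]; exact hq
        · exact link_step K hU (IsClass_inv_AP K hcl1 (PM_le_AP' (tl_mem_PM' hv))) (IH s hs) hs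
            hs' hss (zero_iff v hv s hs hz) (zero_iff v hv s' hs' hz') hq
      have hQ2 : ∀ v ∈ parab M.toCoxeterSystem (U : Set S), ∀ s ∈ U,
          ∀ u ∈ parab M.toCoxeterSystem ((U.erase s : Finset S) : Set S),
          Good K.toKeyData U n ρ s (c * artinGen M x * tl M v) →
          Good K.toKeyData U n ρ s (c * artinGen M x * tl M (v * u)) := fun v hv s hs u hu hq =>
        hq.tl_mul hu
      rcases zero_prop (apt_conv K hcl1 hD1) hn1
        (fun v s => Good K.toKeyData U n ρ s (c * artinGen M x * tl M v)) hQ1 hQ2 _ (w'⁻¹ * w) rfl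
        (mul_mem (inv_mem hw'U) hw) w' hw'U t ht t ht h0' (by rwa [mul_inv_cancel_left]) hgood'
        with h5 | ⟨h5, h6⟩
      · rwa [mul_inv_cancel_left] at h5
      -- antipodal case
      rw [show w'⁻¹ * w = w'⁻¹ * (M.simple x * w') by rw [← hww]] at h6
      simp only [show w'⁻¹ * w = w'⁻¹ * (M.simple x * w') by rw [← hww]] at h5
      obtain ⟨k, hk, hkk⟩ := antipodal_data hxU ht hw'U hlt h5 h6
      rw [← hww] at hkk
      have hz0 : K.d n t (c * artinGen M x * tl M w) = ρ t := by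
        unfold apt at h0; linarith
      have hz0' : K.d n t (c * artinGen M x * tl M (M.simple x * w)) = ρ t := by
        unfold apt at h0'
        rw [← hw']; linarith
      have hKK := K.KK U n ρ (c * artinGen M x) hU hcl1 hD1 hconn
        (fun v hv s hs => by have := hn1 v hv s hs; unfold apt at this; linarith)
        x hxU w hw t ht k hk hkk hz0 hz0'
      have hx0 : apt K.toKeyData n ρ (c * artinGen M x) 1 x = 0 := by
        unfold apt
        rw [show tl M (1 : M.Group) = 1 from Gar.tl_one, mul_one, hKK, sub_self]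
      have hgx : Good K.toKeyData U n ρ x (c * artinGen M x * tl M 1) := by
        refine near 1 (one_mem _) x hxU ?_ hx0
        rw [mul_one, Gar.len_simple, Gar.len_def, M.toCoxeterSystem.length_one]
        norm_num
      by_cases hUx : U = {x}
      · obtain ⟨q, hq, _⟩ := hgx
        rw [hUx] at hq
        simp at hq
      rcases zero_prop (apt_conv K hcl1 hD1) hn1
        (fun v s => Good K.toKeyData U n ρ s (c * artinGen M x * tl M v)) hQ1 hQ2 _ w rfl
        hw 1 (one_mem _) x hxU t ht hx0 (by rwa [one_mul]) hgx with h7 | ⟨h7, _⟩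
      · rwa [one_mul] at h7
      · exfalso
        obtain ⟨r, hr, s, hs, hsr, hadj⟩ := hconn {x} (by simpa using hxU) (by simp)
          (fun h => hUx h.symm)
        rw [Finset.mem_singleton] at hr hsr
        subst hr
        have h8 := h7 s (Finset.mem_erase.2 ⟨hsr, hs⟩)
        rw [hkk s hs] at h8
        rcases mul_eq_zero.1 h8 with h9 | h9
        · linarith
        · exact gram_ne_zero hadj h9

/-! ### restriction to a union of components -/

theorem restrict_class (K : KeySys M) {P U : Finset S} (hPU : P ⊆ U)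
    (hsep : ∀ r ∈ P, ∀ s ∈ U, s ∉ P → ¬ Adj M r s) {n : ℤ} {ρ : S → ℝ} {a : ArtinGroup M}
    (h : K.IsClass U n ρ a) : K.IsClass P n ρ a where
  ext := fun r hr => ⟨fun s hs hrs => (h.ext r (hPU hr)).1 s
    (fun hsU => hsep r hr s hsU hs hrs) hrs, (h.ext r (hPU hr)).2⟩
  slack_nonneg := by
    intro r hr
    have h1 := h.slack_nonneg r (hPU hr)
    have hg : ∀ s ∈ U, s ∉ P → gram M r s = 0 := by
      intro s hs hsP
      by_contra hcon
      refine hsep r hr s hs hsP ⟨?_, fun h2 => hcon (gram_eq_zero h2)⟩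
      rintro rfl; exact hsP hr
    have e : K.slack P n ρ a r = K.slack U n ρ a r := by
      unfold KeyData.slack KeyData.wext
      congr 1
      · congr 1
        symm
        refine Finset.sum_subset (Finset.compl_subset_compl.2 hPU) fun s hs hs' => ?_
        rw [hg s (by simpa using hs') (by simpa using hs)]
        ring
      · refine Finset.sum_subset hPU fun s hs hs' => ?_
        rw [hg s hs hs']
        ring
    rw [e]
    exact h1

theorem gen_comm {r s : S} (hrs : r ≠ s) (h : ¬ Adj M r s) :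
    artinGen M r * artinGen M s = artinGen M s * artinGen M r := by
  have h2 : M r s = 2 := by
    by_contra hcon
    exact h ⟨hrs, hcon⟩
  have hb := Gar.isBraided_artinGen M r s (by rw [h2]; norm_num)
  rw [h2] at hb
  simpa [CoxeterSystem.alternatingWord, mul_assoc, eq_comm] using hb

theorem AP_comm {P Q : Finset S} (hPQ : ∀ r ∈ P, ∀ s ∈ Q, r ≠ s ∧ ¬ Adj M r s)
    {g h : ArtinGroup M} (hg : g ∈ AP M P) (hh : h ∈ AP M Q) : g * h = h * g := by
  unfold AP at hg hh
  induction hg using Subgroup.closure_induction with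
  | mem x hx =>
    obtain ⟨r, hr, rfl⟩ := hx
    induction hh using Subgroup.closure_induction with
    | mem y hy =>
      obtain ⟨s, hs, rfl⟩ := hy
      have := hPQ r (by exact_mod_cast hr) s (by exact_mod_cast hs)
      exact gen_comm this.1 this.2
    | one => simp
    | mul y z _ _ hy hz => rw [← mul_assoc, hy, mul_assoc, hz, mul_assoc]
    | inv y _ hy =>
      have h1 : Commute (artinGen M r) y := hy
      exact h1.inv_right
  | one => simp
  | mul x y _ _ hx hy => rw [mul_assoc, hy, ← mul_assoc, hx, mul_assoc]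
  | inv x _ hx =>
    have h1 : Commute x h := hx
    exact h1.inv_left

theorem AP_split {P U : Finset S} (hsep : ∀ r ∈ P, ∀ s ∈ U, s ∉ P → ¬ Adj M r s)
    {g : ArtinGroup M} (hg : g ∈ AP M U) :
    ∃ g₁ ∈ AP M P, ∃ g₂ ∈ AP M (U \ P), g = g₁ * g₂ := by
  have hcomm : ∀ {x y : ArtinGroup M}, x ∈ AP M P → y ∈ AP M (U \ P) → x * y = y * x := by
    intro x y hx hy
    refine AP_comm (P := P) (Q := U \ P) ?_ hx hy
    intro r hr s hs
    rw [Finset.mem_sdiff] at hs
    refine ⟨?_, hsep r hr s hs.1 hs.2⟩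
    rintro rfl; exact hs.2 hr
  unfold AP at hg
  induction hg using Subgroup.closure_induction with
  | mem x hx =>
    obtain ⟨s, hs, rfl⟩ := hx
    by_cases hsP : s ∈ P
    · exact ⟨artinGen M s, gen_mem_AP hsP, 1, one_mem _, by simp⟩
    · exact ⟨1, one_mem _, artinGen M s,
        gen_mem_AP (Finset.mem_sdiff.2 ⟨by exact_mod_cast hs, hsP⟩), by simp⟩
  | one => exact ⟨1, one_mem _, 1, one_mem _, by simp⟩
  | mul x y _ _ hx hy =>
    obtain ⟨x₁, hx₁, x₂, hx₂, rfl⟩ := hx
    obtain ⟨y₁, hy₁, y₂, hy₂, rfl⟩ := hy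
    refine ⟨x₁ * y₁, mul_mem hx₁ hy₁, x₂ * y₂, mul_mem hx₂ hy₂, ?_⟩
    have := hcomm hy₁ hx₂
    calc x₁ * x₂ * (y₁ * y₂) = x₁ * (x₂ * y₁) * y₂ := by group
      _ = x₁ * (y₁ * x₂) * y₂ := by rw [this]
      _ = x₁ * y₁ * (x₂ * y₂) := by group
  | inv x _ hx =>
    obtain ⟨x₁, hx₁, x₂, hx₂, rfl⟩ := hx
    refine ⟨x₁⁻¹, inv_mem hx₁, x₂⁻¹, inv_mem hx₂, ?_⟩
    have := hcomm hx₁ hx₂
    rw [this, mul_inv_rev]

/-- the reducible case -/
theorem z_split (K : KeySys M) {P U : Finset S} (hPU : P ⊆ U)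
    (hsep : ∀ r ∈ P, ∀ s ∈ U, s ∉ P → ¬ Adj M r s) (IH : ZU K P) {n : ℤ} {ρ : S → ℝ}
    {a : ArtinGroup M} (hU : Spherical M U) (h : K.IsClass U n ρ a) {s t : S} (hs : s ∈ U)
    (ht : t ∈ P) {b c : ArtinGroup M} (hb : b ∈ AP M U) (hc : c ∈ AP M U)
    (h1 : K.Neg n ρ s (a * b)) (h2 : K.Zero n ρ t (a * c)) :
    Good K.toKeyData U n ρ t (a * c) := by
  obtain ⟨g₁, hg₁, g₂, hg₂, he⟩ := AP_split hsep (mul_mem (inv_mem hc) hb)
  have hcomm : g₁ * g₂ = g₂ * g₁ := by
    refine AP_comm (P := P) (Q := U \ P) ?_ hg₁ hg₂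
    intro r hr q hq
    rw [Finset.mem_sdiff] at hq
    refine ⟨?_, hsep r hr q hq.1 hq.2⟩
    rintro rfl; exact hq.2 hr
  have hab : a * b = a * c * (c⁻¹ * b) := by group
  have neg_inv : ∀ {T : Finset S} {q : S}, q ∉ T → ∀ {x y : ArtinGroup M}, y ∈ AP M T →
      K.Neg n ρ q (x * y) → K.Neg n ρ q x := by
    intro T q hq x y hy hn
    exact ⟨(Van_inv_AP K hq _ x hy).1 hn.1, by rw [← d_inv_AP K hq _ x hy]; exact hn.2⟩
  by_cases hsP : s ∈ P
  · have h3 : K.Neg n ρ s (a * c * g₁) := by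
      refine neg_inv (T := U \ P) (by simp [hsP]) hg₂ ?_
      rw [mul_assoc (a * c), ← he, ← hab]
      exact h1
    obtain ⟨q, hq, e, hee, hn⟩ := IH n ρ (a * c) (hU.subset hPU)
      (restrict_class K hPU hsep (IsClass_inv_AP K h hc)) s hsP t ht g₁ hg₁ 1 (one_mem _) h3
      (by rwa [mul_one])
    rw [mul_one] at hn
    have hsub : P.erase t ⊆ U.erase t := Finset.erase_subset_erase _ hPU
    exact ⟨q, hsub hq, e, AP_mono' hsub hee, hn⟩
  · have h3 : K.Neg n ρ s (a * c * g₂) := by
      refine neg_inv (T := P) hsP hg₁ ?_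
      rw [mul_assoc (a * c), ← hcomm, ← he, ← hab]
      exact h1
    have hst : s ≠ t := by rintro rfl; exact hsP ht
    have hsub : U \ P ⊆ U.erase t := by
      intro q hq
      rw [Finset.mem_sdiff] at hq
      refine Finset.mem_erase.2 ⟨?_, hq.1⟩
      rintro rfl; exact hq.2 ht
    exact ⟨s, Finset.mem_erase.2 ⟨hst, hs⟩, g₂, AP_mono' hsub hg₂, h3⟩

theorem zu (K : KeySys M) (m : ℕ) : ∀ U : Finset S, U.card = m → ZU K U := by
  induction m using Nat.strong_induction_on with
  | _ m ih =>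
  intro U hm n ρ a hU h s hs t ht b hb c hc h1 h2
  have adj_symm : ∀ {r s : S}, Adj M r s → Adj M s r := fun h =>
    ⟨h.1.symm, fun h2 => h.2 (by rw [M.symmetric]; exact h2)⟩
  by_cases hconn : Cn M U
  · -- connected
    have IH : ∀ t ∈ U, ZU K (U.erase t) := fun t ht =>
      ih _ (by rw [← hm]; exact Finset.card_erase_lt_of_mem ht) _ rfl
    have hclb := IsClass_inv_AP K h hb
    have hclc := IsClass_inv_AP K h hc
    obtain ⟨p, hp, hDp⟩ := exists_rep K hU hclb hs h1.1
    obtain ⟨q, hq, hDq⟩ := exists_rep K hU hclc ht h2.1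
    have hpU : p ∈ AP M U := AP_mono' (Finset.erase_subset _ _) (PM_le_AP' hp)
    have hqU : q ∈ AP M U := AP_mono' (Finset.erase_subset _ _) (PM_le_AP' hq)
    have n1 : K.Neg n ρ s (a * b * p) :=
      ⟨(Van_inv_AP K (Finset.notMem_erase s U) _ _ (PM_le_AP' hp)).2 h1.1, by
        rw [d_inv_AP K (Finset.notMem_erase s U) _ _ (PM_le_AP' hp)]; exact h1.2⟩
    have z2 : K.Zero n ρ t (a * c * q) :=
      ⟨(Van_inv_AP K (Finset.notMem_erase t U) _ _ (PM_le_AP' hq)).2 h2.1, by
        rw [d_inv_AP K (Finset.notMem_erase t U) _ _ (PM_le_AP' hq)]; exact h2.2⟩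
    obtain ⟨a₀, ha₀, hD₀, hl1, hl2⟩ := exists_meet K (a₁ := a * b * p) (a₂ := a * c * q) hU h
      (by rw [mul_assoc, inv_mul_cancel_left]; exact mul_mem hb hpU)
      (by rw [mul_assoc, inv_mul_cancel_left]; exact mul_mem hc hqU) hDp hDq
    have hcl0 := IsClass_inv_AP K h ha₀
    rw [mul_inv_cancel_left] at hcl0
    have e1 : a₀ * (a₀⁻¹ * (a * b * p)) * tl M (1 : M.Group) = a * b * p := by
      rw [mul_inv_cancel_left, show tl M (1 : M.Group) = 1 from Gar.tl_one, mul_one]
    have e2 : a₀ * (a₀⁻¹ * (a * c * q)) * tl M (1 : M.Group) = a * c * q := by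
      rw [mul_inv_cancel_left, show tl M (1 : M.Group) = 1 from Gar.tl_one, mul_one]
    obtain ⟨w₁, hw₁, m1, _⟩ :=
      fold_down K hcl0 hD₀ hl1 1 (one_mem _) s hs (by rw [e1]; exact n1)
    have hm1 := (Neg_iff_apt K hcl0 hD₀ hw₁ hs).1 m1
    have hgood := main_conn K hU hcl0 hD₀ hconn IH hw₁ hs hm1 hl2 1 (one_mem _) t ht (by
      unfold apt
      rw [e2, z2.2, sub_self])
    rw [e2] at hgood
    have := hgood.mul (inv_mem (PM_le_AP' hq))
    rwa [mul_inv_cancel_right] at this
  · -- reducible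
    unfold Cn at hconn
    push Not at hconn
    obtain ⟨P, hPU, hPne, hPU', hsep⟩ := hconn
    have hlt : P.card < U.card := Finset.card_lt_card (hPU.ssubset_of_ne hPU')
    by_cases htP : t ∈ P
    · exact z_split K hPU hsep (ih _ (hm ▸ hlt) P rfl) hU h hs htP hb hc h1 h2
    · have hlt' : (U \ P).card < U.card := by
        apply Finset.card_lt_card
        refine Finset.sdiff_ssubset hPU hPne
      refine z_split K (P := U \ P) Finset.sdiff_subset ?_ (ih _ (hm ▸ hlt') _ rfl) hU h hs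
        (Finset.mem_sdiff.2 ⟨ht, htP⟩) hb hc h1 h2
      intro r hr s' hs' hs'' hadj
      rw [Finset.mem_sdiff] at hr hs''
      push Not at hs''
      exact hsep s' (hs'' hs') r hr.1 hr.2 (adj_symm hadj)

/-- OUTPUT of FOLD-Z -/
theorem zstmt (K : KeySys M) : ZStmt K.toKeyData := by
  intro U n ρ a hU h s hs t ht b hb c hc h1 h2
  exact zu K _ U rfl n ρ a hU h s hs t ht b hb c hc h1 h2

end Vale.Agent.P203.FoldZ
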