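import Vale.Agent.P203.Fold.Sys

/-! P203, block FOLD-L2, part 3: `GInv` from `AlgMain`, discreteness of the values, assembly of
`KeySys` (the field `KK` is a hypothesis here). -/

set_option linter.all false

namespace Vale.Agent.P203.Fold

open Vale.Agent.P203 Vale.Agent.P203.Cox Vale.Agent.P203.Mod Module

variable {S C X Λ : Type} [Fintype S] [DecidableEq S] [DecidableEq C] [Fintype X] [DecidableEq X]
  [Fintype Λ] [DecidableEq Λ] {k : Type} [Field k]
variable {Γ : FGraph C X Λ} {M : CoxeterMatrix S} {col : S → C}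

/-! ### positive words on modules in degree `0` -/

theorem subsingleton_C {V : PMod k Γ} (h : ∀ x, Subsingleton (V.V x)) (c : C) (x : X) :
    Subsingleton ((PMod.C c V).V x) := by
  by_cases hx : Γ.π x = c
  · haveI : Subsingleton (V.N x) := ⟨fun f g => funext fun p => by
      haveI := h p.1.1
      exact Subsingleton.elim _ _⟩
    exact (V.Cpr_surj hx).subsingleton
  · haveI := h x
    exact (V.Cin_bij hx).2.subsingleton

theorem word_zero {H : ArtinGroup M → ℤ → PMod k Γ} (hH : IsHSys M Γ col H) (ω : List S)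
    {a : ArtinGroup M} (h : ∀ n, 0 < n → ∀ x, Subsingleton ((H a n).V x)) :
    (∀ n, 0 < n → ∀ x, Subsingleton ((H (a * pr M ω) n).V x)) ∧
      PMod.Isom (H (a * pr M ω) 0) (Cw col ω (H a 0)) := by
  induction ω generalizing a with
  | nil =>
    rw [pr_nil, mul_one]
    exact ⟨h, PMod.Isom.refl _⟩
  | cons s ω ih =>
    have h1 : ∀ n, 0 < n → ∀ x, Subsingleton ((H (a * artinGen M s) n).V x) := by
      intro n hn x
      rw [subsingleton_iff_of_isom (hH.step a n s fun x _ => h (n + 1) (by omega) x) x]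
      exact subsingleton_C (h n hn) _ x
    obtain ⟨h2, h3⟩ := ih h1
    rw [pr_cons, ← mul_assoc]
    exact ⟨h2, h3.trans ((hH.step a 0 s fun x _ => h (0 + 1) (by omega) x).Cw (ω.map col))⟩

theorem ginv_of_alg (hA : AlgMain k M Γ col) : GInv k Γ col M := by
  intro x l l' hl
  obtain ⟨H, hH, h0, hn⟩ := hA (PMod.sim k Γ x) inferInstance (PMod.sim_nilp x)
  have h1 := (word_zero hH l (a := 1) fun n hn' y => hn n (by omega) y).2
  have h2 := (word_zero hH l' (a := 1) fun n hn' y => hn n (by omega) y).2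
  rw [one_mul] at h1 h2
  have e : pr M l = pr M l' := hl
  rw [← e] at h2
  exact (h0.symm.Cw (l.map col)).trans (h1.symm.trans (h2.trans (h0.Cw (l'.map col))))

/-! ### discreteness of the values -/

/-- all possible weighted dimensions -/
def vals (w : Weights Γ col M) : Set ℝ := Set.range fun c : X → ℕ => ∑ x, w.η x * (c x : ℝ)

theorem dv_mem_vals (w : Weights Γ col M) (V : PMod k Γ) (s : S) : dv w V s ∈ vals w := by
  refine ⟨fun x => if Γ.π x = col s then V.dim x else 0, ?_⟩
  rw [dv_apply]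
  refine Finset.sum_congr rfl fun x _ => ?_
  by_cases hx : Γ.π x = col s
  · simp [hx]
  · simp [hx]

theorem vals_fin (w : Weights Γ col M) (c : ℝ) : (vals w ∩ Set.Iic c).Finite := by
  have h : vals w ∩ Set.Iic c ⊆ (fun c : X → ℕ => ∑ x, w.η x * (c x : ℝ)) ''
      (Set.univ.pi fun x => Set.Iic ⌊c / w.η x⌋₊) := by
    rintro _ ⟨⟨f, rfl⟩, hf⟩
    refine ⟨f, fun x _ => ?_, rfl⟩
    rw [Set.mem_Iic]
    apply Nat.le_floor
    rw [le_div_iff₀ (w.pos x), mul_comm]
    refine le_trans ?_ hf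
    exact Finset.single_le_sum (f := fun x => w.η x * (f x : ℝ))
      (fun y _ => mul_nonneg (w.pos y).le (Nat.cast_nonneg _)) (Finset.mem_univ x)
  exact Set.Finite.subset ((Set.Finite.pi' fun x => Set.finite_Iic _).image _) (by simpa [Set.pi] using h)

/-- the field `KK` of `KeySys` -/
def KKStmt (K : Spec.KeyData M) : Prop :=
  ∀ (T : Finset S) (n : ℤ) (ρ : S → ℝ) (a : ArtinGroup M), Spherical M T →
    K.IsClass T n ρ a → K.InD T n a →
    (∀ P : Finset S, P ⊆ T → P.Nonempty → P ≠ T → ∃ r ∈ P, ∃ s ∈ T, s ∉ P ∧ Spec.Adj M r s) →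
    (∀ w ∈ Spec.WP M T, ∀ t ∈ T, ρ t ≤ K.d n t (a * Spec.tl M w)) →
    ∀ x ∈ T, ∀ w ∈ Spec.WP M T, ∀ t ∈ T, ∀ k : ℝ, 0 < k →
      (∀ s ∈ T, (act M.toCoxeterSystem w⁻¹ (Finsupp.single s 1)) t = - k * gram M x s) →
      K.d n t (a * Spec.tl M w) = ρ t → K.d n t (a * Spec.tl M (M.simple x * w)) = ρ t →
      K.d n x a = ρ x

/-- assembly of the key system -/
noncomputable def keySys (w : Weights Γ col M) {H : ArtinGroup M → ℤ → PMod k Γ}
    (hH : IsHSys M Γ col H) (hG : GInv k Γ col M) (hK : KKStmt (keyData w H)) :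
    Spec.KeySys M where
  toKeyData := keyData w H
  d_nonneg n t a := dv_nonneg w _ _
  fr_nonneg n r := frc_nonneg w _ _
  inv n s t a h := d_inv w hH n a h
  bdd a := by
    obtain ⟨N, hN⟩ := hH.bdd a
    refine ⟨N, fun n hn t => ?_⟩
    change dv w (H a n) t = 0
    rw [dv_eq_zero_iff]
    intro x _
    rw [← subsingleton_iff_dim (hH.fd a n)]
    exact hN n hn x
  vals := vals w
  vals_fin := vals_fin w
  d_mem n t a := dv_mem_vals w _ _
  F1 U n a h hD r hr := F1_main w hH U n a h hD r hr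
  F2 U n a h hD x hx g hg t ht := F2_main w hH U n a h hD x hx g hg t ht
  F3 U n a h hD := F3_main w hH hG U n a h hD
  F4 T n a hT h := F4_main w hH T n a hT h
  KK := hK

theorem keySys_toKeyData (w : Weights Γ col M) {H : ArtinGroup M → ℤ → PMod k Γ}
    (hH : IsHSys M Γ col H) (hG : GInv k Γ col M) (hK : KKStmt (keyData w H)) :
    (keySys w hH hG hK).toKeyData = keyData w H := rfl

/-- translating a system -/
theorem IsHSys.translate {H : ArtinGroup M → ℤ → PMod k Γ} (hH : IsHSys M Γ col H)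
    (g : ArtinGroup M) : IsHSys M Γ col (fun a n => H (g⁻¹ * a) n) where
  fd a n := hH.fd _ n
  nilp a n := hH.nilp _ n
  bdd a := hH.bdd _
  step a n s h := by
    have := hH.step (g⁻¹ * a) n s h
    rwa [mul_assoc] at this
  inv a n s x h := by
    have := hH.inv (g⁻¹ * a) n s x h
    rwa [mul_assoc] at this

/-- every vertex over `S` has a framing neighbour -/
def Framed (Γ : FGraph C X Λ) (col : S → C) : Prop :=
  ∀ s : S, ∃ x, Γ.π x = col s ∧ ∃ y l, Γ.adj x y l = true ∧ ∀ t, Γ.π y ≠ col t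

open scoped Classical in
/-- `k` at all framing vertices, `0` over `S` -/
def frSub (k : Type) [Field k] (Γ : FGraph C X Λ) (col : S → C) (y : X) : Submodule k k :=
  if (∃ t, Γ.π y = col t) then ⊥ else ⊤

/-- the framing module -/
def frMod (k : Type) [Field k] (Γ : FGraph C X Λ) (col : S → C) : PMod k Γ where
  V y := ↥(frSub k Γ col y)
  a _ _ _ := 0
  rel _ _ := by simp

theorem frMod_dim (y : X) : (frMod k Γ col).dim y = Module.finrank k (frSub k Γ col y) := rfl

theorem frMod_dim_of {y : X} (h : ∃ t, Γ.π y = col t) : (frMod k Γ col).dim y = 0 := by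
  rw [frMod_dim, show frSub k Γ col y = ⊥ from if_pos h, finrank_bot]

theorem frMod_dim_of_not {y : X} (h : ¬ ∃ t, Γ.π y = col t) : (frMod k Γ col).dim y = 1 := by
  rw [frMod_dim, show frSub k Γ col y = ⊤ from if_neg h, finrank_top, Module.finrank_self]

instance frMod_fd : (frMod k Γ col).FD :=
  ⟨fun y => Module.Finite.of_injective (frSub k Γ col y).subtype Subtype.val_injective⟩

theorem frMod_nilp : (frMod k Γ col).Nilp := ⟨1, fun y v p => by
  change (0 : (frMod k Γ col).V y →ₗ[k] (frMod k Γ col).V p.1.1) v = 0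
  rfl⟩

/-- existence of a base key system -/
theorem exists_base (w : Weights Γ col M) (hF : Framed Γ col) (hA : AlgMain k M Γ col)
    (hK : ∀ H : ArtinGroup M → ℤ → PMod k Γ, IsHSys M Γ col H → KKStmt (keyData w H))
    (g : ArtinGroup M) : ∃ K : Spec.KeySys M, Spec.IsBase K.toKeyData g := by
  obtain ⟨H, hH, h0, hn⟩ := hA (frMod k Γ col) inferInstance frMod_nilp
  have hH' := hH.translate g
  refine ⟨keySys w hH' (ginv_of_alg hA) (hK _ hH'), ?_, ?_, ?_⟩
  · intro n t
    change dv w (H (g⁻¹ * g) n) t = 0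
    rw [inv_mul_cancel, dv_eq_zero_iff]
    intro x hx
    by_cases hn0 : n = 0
    · subst hn0
      rw [PMod.dim_eq_of_isom h0, frMod_dim_of ⟨t, hx⟩]
    · rw [← subsingleton_iff_dim (hH.fd 1 n)]
      exact hn n hn0 x
  · intro r
    change 0 < frc w (H (g⁻¹ * 1) 0) r
    rw [frc_eq w hH, frc_congr w (fun x _ => PMod.dim_eq_of_isom h0 x) r]
    obtain ⟨x, hx, y, l, hl, hy⟩ := hF r
    have hy' : ¬ ∃ t, Γ.π y = col t := fun ⟨t, ht⟩ => hy t ht
    have hnn : ∀ (y' : X) (x' : X) (l' : Λ),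
        0 ≤ (if Γ.π x' = col r ∧ Γ.adj x' y' l' = true then w.η x' else 0) := by
      intro y' x' l'
      split_ifs
      · exact (w.pos x').le
      · exact le_rfl
    unfold frc
    refine Finset.sum_pos' (fun y' _ => ?_) ⟨y, Finset.mem_univ _, ?_⟩
    · split_ifs
      · exact le_rfl
      · exact mul_nonneg (Finset.sum_nonneg fun x' _ => Finset.sum_nonneg fun l' _ => hnn _ _ _)
          (Nat.cast_nonneg _)
    · rw [if_neg hy', frMod_dim_of_not hy', Nat.cast_one, mul_one]
      refine Finset.sum_pos' (fun x' _ => Finset.sum_nonneg fun l' _ => hnn _ _ _)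
        ⟨x, Finset.mem_univ _, Finset.sum_pos' (fun l' _ => hnn _ _ _)
          ⟨l, Finset.mem_univ _, ?_⟩⟩
      rw [if_pos ⟨hx, hl⟩]
      exact w.pos x
  · intro n r hn0
    change frc w (H (g⁻¹ * 1) n) r = 0
    rw [frc_eq w hH]
    refine frc_eq_zero w (fun x _ => ?_) r
    rw [← subsingleton_iff_dim (hH.fd 1 n)]
    exact hn n (by omega) x

end Vale.Agent.P203.Fold
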