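import Vale.Agent.P203.Mod.Word
import Vale.Agent.P203.Spec.KeySys

/-! P203, block FOLD-L2, part 1: the interface with the algebra blocks.

`C` is a type of colours, `col : S → C`; the colours not in the image of `col` are the
framing colours (never reflected). `IsHSys M Γ col H`: `H a n = H^n(a⁻¹G)` as a module over the
preprojective algebra of `Γ`. -/

set_option linter.all false

namespace Vale.Agent.P203.Fold

open Vale.Agent.P203 Vale.Agent.P203.Cox Vale.Agent.P203.Mod Module

variable {S C X Λ : Type} [Fintype S] [DecidableEq S] [DecidableEq C] [Fintype X] [DecidableEq X]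
  [Fintype Λ] [DecidableEq Λ] {k : Type} [Field k]

/-- `H a n` is the `n`-th cohomology module of `a⁻¹G` -/
structure IsHSys (M : CoxeterMatrix S) (Γ : FGraph C X Λ) (col : S → C)
    (H : ArtinGroup M → ℤ → PMod k Γ) : Prop where
  fd : ∀ a n, (H a n).FD
  nilp : ∀ a n, (H a n).Nilp
  bdd : ∀ a, ∃ N : ℤ, ∀ n, N < n → ∀ x, Subsingleton ((H a n).V x)
  step : ∀ a n s, (∀ x, Γ.π x = col s → Subsingleton ((H a (n + 1)).V x)) →
    PMod.Isom (H (a * artinGen M s) n) (PMod.C (col s) (H a n))
  inv : ∀ a n s x, Γ.π x ≠ col s → (H (a * artinGen M s) n).dim x = (H a n).dim x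

/-- what the algebra blocks deliver -/
def AlgMain (k : Type) [Field k] (M : CoxeterMatrix S) (Γ : FGraph C X Λ) (col : S → C) : Prop :=
  ∀ V : PMod k Γ, V.FD → V.Nilp → ∃ H : ArtinGroup M → ℤ → PMod k Γ, IsHSys M Γ col H ∧
    PMod.Isom (H 1 0) V ∧ ∀ n, n ≠ 0 → ∀ x, Subsingleton ((H 1 n).V x)

/-- composition of the functors `C` along a word, first letter first -/
noncomputable abbrev Cw {Γ : FGraph C X Λ} (col : S → C) (ω : List S) (V : PMod k Γ) : PMod k Γ :=
  PMod.Cw (ω.map col) V

/-- the product of a word in the Artin group -/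
noncomputable def pr (M : CoxeterMatrix S) (ω : List S) : ArtinGroup M := (ω.map (artinGen M)).prod

section basic

variable {Γ : FGraph C X Λ} {M : CoxeterMatrix S} {col : S → C}

theorem subsingleton_iff_of_isom {V W : PMod k Γ} (h : PMod.Isom V W) (x : X) :
    Subsingleton (V.V x) ↔ Subsingleton (W.V x) := by
  obtain ⟨f, hf⟩ := h
  exact (LinearEquiv.ofBijective (f.f x) (hf x)).toEquiv.subsingleton_congr

theorem subsingleton_iff_dim {V : PMod k Γ} (hV : V.FD) (x : X) :
    Subsingleton (V.V x) ↔ V.dim x = 0 := by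
  haveI := hV
  exact (V.dim_eq_zero_iff x).symm

@[simp] theorem pr_nil : pr M [] = 1 := rfl
@[simp] theorem pr_cons (s : S) (ω : List S) : pr M (s :: ω) = artinGen M s * pr M ω := by
  simp [pr]
theorem pr_append (ω ω' : List S) : pr M (ω ++ ω') = pr M ω * pr M ω' := by
  simp [pr]

theorem exists_word {U : Finset S} {a : ArtinGroup M} (ha : a ∈ Spec.PM M U) :
    ∃ ω : List S, (∀ i ∈ ω, i ∈ U) ∧ pr M ω = a := by
  unfold Spec.PM at ha
  induction ha using Submonoid.closure_induction with
  | mem x hx =>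
    obtain ⟨s, hs, rfl⟩ := hx
    exact ⟨[s], by simpa using hs, by simp [pr]⟩
  | one => exact ⟨[], by simp, rfl⟩
  | mul x y _ _ h1 h2 =>
    obtain ⟨ω, h1, rfl⟩ := h1
    obtain ⟨ω', h2, rfl⟩ := h2
    exact ⟨ω ++ ω', by
      intro i hi
      rcases List.mem_append.1 hi with h | h
      · exact h1 i h
      · exact h2 i h, pr_append _ _⟩

theorem pr_mem {U : Finset S} {ω : List S} (h : ∀ i ∈ ω, i ∈ U) : pr M ω ∈ Spec.PM M U := by
  induction ω with
  | nil => exact one_mem _
  | cons s ω ih =>
    rw [pr_cons]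
    exact mul_mem (Submonoid.subset_closure ⟨s, h s (by simp), rfl⟩)
      (ih fun i hi => h i (by simp [hi]))

end basic

end Vale.Agent.P203.Fold
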