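import Vale.Agent.P203.Fold.Base

/-! Block FOLD-L1: the negative vertices of `Δ_U`, `U` spherical, are connected (`ConnStmt`). -/

set_option linter.all false

namespace Vale.Agent.P203.FoldL1

open Vale.Agent.P203 Vale.Agent.P203.Cox Vale.Agent.P203.Spec

variable {S : Type} [Fintype S] [DecidableEq S] {M : CoxeterMatrix S}

/-- two negative vertices of one apartment `[b, bΔ]`, `b ∈ D`, are connected -/
theorem apt_path (K : KeySys M) {U : Finset S} {n : ℤ} {ρ : S → ℝ} {b : ArtinGroup M}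
    (h : K.IsClass U n ρ b) (hD : K.InD U n b) {w w' : M.Group} {t t' : S}
    (hw : w ∈ WP M U) (hw' : w' ∈ WP M U) (ht : t ∈ U) (ht' : t' ∈ U)
    (h1 : K.Neg n ρ t (b * tl M w)) (h2 : K.Neg n ρ t' (b * tl M w')) :
    Relation.ReflTransGen (Step (K.Neg n ρ) U) (t, b * tl M w) (t', b * tl M w') := by
  have h3 := Apt.chain_neg (apt_conv K h hD) (w := w) (w' := w') hw hw' ht ht'
    ((Neg_iff_apt K h hD hw ht).1 h1) ((Neg_iff_apt K h hD hw' ht').1 h2)
  exact path_of_chain b (fun w hw t ht hq => (Neg_iff_apt K h hD hw ht).2 hq) h3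

/-- folding: from `[b, bΔ]`, `b = b' σ_x`, to `[b', b'Δ]` -/
theorem fold_neg (K : KeySys M) {U : Finset S} {n : ℤ} {ρ : S → ℝ} {b' : ArtinGroup M}
    (h : K.IsClass U n ρ b') (hD : K.InD U n b') {x : S} (hx : x ∈ U) {w : M.Group}
    {t : S} (hw : w ∈ WP M U) (ht : t ∈ U) (h1 : K.Neg n ρ t (b' * artinGen M x * tl M w)) :
    ∃ w' ∈ WP M U, K.Neg n ρ t (b' * tl M w') ∧
      Relation.ReflTransGen (Step (K.Neg n ρ) U) (t, b' * artinGen M x * tl M w)
        (t, b' * tl M w') := by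
  have hxW : M.simple x ∈ WP M U := Subgroup.subset_closure ⟨x, by exact_mod_cast hx, rfl⟩
  have hxw : M.simple x * w ∈ WP M U := mul_mem hxW hw
  have hcl : K.IsClass U n ρ (b' * artinGen M x) := IsClass_inv_AP K h (gen_mem_AP hx)
  have hD1 : K.InD U n (b' * artinGen M x) := InD_gen K h hD hx
  rcases Gar.len_simple_mul w x with h2 | h2
  · have e : tl M (M.simple x * w) = artinGen M x * tl M w := Gar.tl_simple_mul (by omega)
    refine ⟨M.simple x * w, hxw, ?_, ?_⟩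
    · rw [e, ← mul_assoc]; exact h1
    · rw [e, ← mul_assoc]
  · have e : tl M w = artinGen M x * tl M (M.simple x * w) :=
      Gar.tl_eq_mul_of_left_desc (by omega)
    refine ⟨w, hw, ?_, ?_⟩
    · -- `b' w~ = b (s_x w)~`
      have h3 := K.F2 U n b' h.ext hD x hx (tl M (M.simple x * w)) (tl_mem_PM' hxw) t ht
      rw [e] at h1 ⊢
      rw [← mul_assoc] at h1 ⊢
      refine ⟨?_, lt_of_le_of_lt h3 h1.2⟩
      exact InD_PM K hcl hD1 (tl_mem_PM' hxw) t ht
    · have h3 := K.F2 U n b' h.ext hD x hx (tl M (M.simple x * w)) (tl_mem_PM' hxw) t ht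
      have hneg : K.Neg n ρ t (b' * artinGen M x * tl M (M.simple x * w)) := by
        have h1' := h1
        rw [e, ← mul_assoc] at h1'
        exact ⟨InD_PM K hcl hD1 (tl_mem_PM' hxw) t ht, lt_of_le_of_lt h3 h1'.2⟩
      have h4 := apt_path K hcl hD1 hw hxw ht ht h1 hneg
      have e2 : b' * tl M w = b' * artinGen M x * tl M (M.simple x * w) := by
        rw [e, mul_assoc]
      rw [e2]
      exact h4

/-- every negative vertex above `a₀ ∈ D` is connected to one of `[a₀, a₀Δ]` -/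
theorem fold_down (K : KeySys M) {U : Finset S} {n : ℤ} {ρ : S → ℝ} {a₀ : ArtinGroup M}
    (h : K.IsClass U n ρ a₀) (hD : K.InD U n a₀) {g : ArtinGroup M} (hg : g ∈ PM M U) :
    ∀ w ∈ WP M U, ∀ t ∈ U, K.Neg n ρ t (a₀ * g * tl M w) →
      ∃ w' ∈ WP M U, K.Neg n ρ t (a₀ * tl M w') ∧
        Relation.ReflTransGen (Step (K.Neg n ρ) U) (t, a₀ * g * tl M w) (t, a₀ * tl M w') := by
  refine Gar.PM_induction_right (T := (U : Set S)) (p := fun g => ∀ w ∈ WP M U, ∀ t ∈ U,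
    K.Neg n ρ t (a₀ * g * tl M w) → ∃ w' ∈ WP M U, K.Neg n ρ t (a₀ * tl M w') ∧
      Relation.ReflTransGen (Step (K.Neg n ρ) U) (t, a₀ * g * tl M w) (t, a₀ * tl M w')) ?_ ?_ hg
  · intro w hw t ht h1
    rw [mul_one] at h1 ⊢
    exact ⟨w, hw, h1, Relation.ReflTransGen.refl⟩
  · intro b hb x hx ih w hw t ht h1
    rw [← mul_assoc] at h1 ⊢
    obtain ⟨w', hw', h2, h3⟩ := fold_neg K (IsClass_inv_AP K h (PM_le_AP' hb))
      (InD_PM K h hD hb) (by exact_mod_cast hx) hw ht h1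
    obtain ⟨w'', hw'', h4, h5⟩ := ih w' hw' t ht h2
    exact ⟨w'', hw'', h4, h3.trans h5⟩

/-- OUTPUT of FOLD-L1 -/
theorem conn (K : KeySys M) : ConnStmt K.toKeyData := by
  intro U n ρ a hU h s hs t ht b hb c hc h1 h2
  have hclb := IsClass_inv_AP K h hb
  have hclc := IsClass_inv_AP K h hc
  obtain ⟨p, hp, hDp⟩ := exists_rep K hU hclb hs h1.1
  obtain ⟨q, hq, hDq⟩ := exists_rep K hU hclc ht h2.1
  have hpU : p ∈ AP M U := AP_mono' (Finset.erase_subset _ _) (PM_le_AP' hp)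
  have hqU : q ∈ AP M U := AP_mono' (Finset.erase_subset _ _) (PM_le_AP' hq)
  obtain ⟨n1, p1⟩ := path_PM (P := K.Neg n ρ) hs
    (fun r hr hrs a h => (Neg_gen K hrs a).2 h) hp h1
  obtain ⟨n2, p2⟩ := path_PM (P := K.Neg n ρ) ht
    (fun r hr hrs a h => (Neg_gen K hrs a).2 h) hq h2
  obtain ⟨a₀, ha₀, hD₀, hl1, hl2⟩ := exists_meet K (a₁ := a * b * p) (a₂ := a * c * q) hU h
    (by rw [mul_assoc, inv_mul_cancel_left]; exact mul_mem hb hpU)
    (by rw [mul_assoc, inv_mul_cancel_left]; exact mul_mem hc hqU) hDp hDq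
  have hcl0 := IsClass_inv_AP K h ha₀
  rw [mul_inv_cancel_left] at hcl0
  have e1 : a₀ * (a₀⁻¹ * (a * b * p)) * tl M (1 : M.Group) = a * b * p := by
    rw [mul_inv_cancel_left, show tl M (1 : M.Group) = 1 from Gar.tl_one, mul_one]
  have e2 : a₀ * (a₀⁻¹ * (a * c * q)) * tl M (1 : M.Group) = a * c * q := by
    rw [mul_inv_cancel_left, show tl M (1 : M.Group) = 1 from Gar.tl_one, mul_one]
  obtain ⟨w1, hw1, m1, r1⟩ := fold_down K hcl0 hD₀ hl1 1 (one_mem _) s hs (by rw [e1]; exact n1)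
  obtain ⟨w2, hw2, m2, r2⟩ := fold_down K hcl0 hD₀ hl2 1 (one_mem _) t ht (by rw [e2]; exact n2)
  rw [e1] at r1
  rw [e2] at r2
  exact ((p1.trans r1).trans (apt_path K hcl0 hD₀ hw1 hw2 hs ht m1 m2)).trans
    ((step_equiv _ _).symm (p2.trans r2))

end Vale.Agent.P203.FoldL1
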