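import Vale.Agent.P203.Spec.KeySys
import Vale.Agent.P203.Apt.Comb
import Vale.Agent.P203.Gar.Delta

/-! Block FOLD, common base: invariance of the class data along cosets of `A_U`, the apartment
function of a chamber in `D` is wall-convex, chains in apartments give paths in `Δ_U`. -/

set_option linter.all false

namespace Vale.Agent.P203.FoldL1

open Vale.Agent.P203 Vale.Agent.P203.Cox Vale.Agent.P203.Spec

variable {S : Type} [Fintype S] [DecidableEq S] {M : CoxeterMatrix S}

theorem d_inv_AP (K : KeySys M) {U : Finset S} {s : S} (hs : s ∉ U) (m : ℤ)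
    (a : ArtinGroup M) {b : ArtinGroup M} (hb : b ∈ AP M U) :
    K.d m s (a * b) = K.d m s a := by
  unfold AP at hb
  induction hb using Subgroup.closure_induction_right with
  | one => rw [mul_one]
  | mul_right x hx y hy ih =>
    obtain ⟨j, hj, rfl⟩ := hy
    rw [← mul_assoc, K.inv m j s _ (by rintro rfl; exact hs (by exact_mod_cast hj)), ih]
  | mul_inv_cancel x hx y hy ih =>
    obtain ⟨j, hj, rfl⟩ := hy
    rw [← mul_assoc, ← K.inv m j s (a * x * (artinGen M j)⁻¹)
      (by rintro rfl; exact hs (by exact_mod_cast hj)), inv_mul_cancel_right, ih]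

theorem Van_inv_AP (K : KeySys M) {U : Finset S} {s : S} (hs : s ∉ U) (n : ℤ)
    (a : ArtinGroup M) {b : ArtinGroup M} (hb : b ∈ AP M U) :
    K.Van n s (a * b) ↔ K.Van n s a := by
  unfold KeyData.Van
  simp only [d_inv_AP K hs _ a hb]

theorem Ext_inv_AP (K : KeySys M) {U : Finset S} (n : ℤ)
    (a : ArtinGroup M) {b : ArtinGroup M} (hb : b ∈ AP M U) :
    K.Ext U n (a * b) ↔ K.Ext U n a := by
  unfold KeyData.Ext
  constructor
  · intro h r hr
    exact ⟨fun s hs hrs => (Van_inv_AP K hs _ a hb).1 ((h r hr).1 s hs hrs), (h r hr).2⟩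
  · intro h r hr
    exact ⟨fun s hs hrs => (Van_inv_AP K hs _ a hb).2 ((h r hr).1 s hs hrs), (h r hr).2⟩

theorem wext_inv_AP (K : KeySys M) {U : Finset S} (n : ℤ)
    (a : ArtinGroup M) {b : ArtinGroup M} (hb : b ∈ AP M U) (r : S) :
    K.wext U n (a * b) r = K.wext U n a r := by
  unfold KeyData.wext
  congr 1
  exact Finset.sum_congr rfl fun s hs => by
    rw [d_inv_AP K (Finset.mem_compl.1 hs) _ a hb]

theorem slack_inv_AP (K : KeySys M) {U : Finset S} (n : ℤ) (ρ : S → ℝ)
    (a : ArtinGroup M) {b : ArtinGroup M} (hb : b ∈ AP M U) (r : S) :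
    K.slack U n ρ (a * b) r = K.slack U n ρ a r := by
  unfold KeyData.slack
  rw [wext_inv_AP K n a hb]

theorem IsClass_inv_AP (K : KeySys M) {U : Finset S} {n : ℤ} {ρ : S → ℝ}
    {a : ArtinGroup M} (h : K.IsClass U n ρ a) {b : ArtinGroup M} (hb : b ∈ AP M U) :
    K.IsClass U n ρ (a * b) :=
  ⟨(Ext_inv_AP K n a hb).2 h.ext, fun r hr => by
    rw [slack_inv_AP K n ρ a hb]; exact h.slack_nonneg r hr⟩

theorem gen_mem_AP {U : Finset S} {s : S} (hs : s ∈ U) : artinGen M s ∈ AP M U :=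
  Subgroup.subset_closure ⟨s, by exact_mod_cast hs, rfl⟩

theorem gen_mem_PM {U : Finset S} {s : S} (hs : s ∈ U) : artinGen M s ∈ PM M U :=
  Submonoid.subset_closure ⟨s, by exact_mod_cast hs, rfl⟩

theorem PM_le_AP' {U : Finset S} {a : ArtinGroup M} (h : a ∈ PM M U) : a ∈ AP M U :=
  Gar.mem_AP_of_PM h

theorem AP_mono' {U V : Finset S} (h : U ⊆ V) {a : ArtinGroup M} (ha : a ∈ AP M U) :
    a ∈ AP M V := Gar.AP_mono (by exact_mod_cast h) ha

theorem tl_mem_PM' {U : Finset S} {w : M.Group} (hw : w ∈ WP M U) : tl M w ∈ PM M U :=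
  Gar.tl_mem_PM hw

/-- one positive step stays in `D` -/
theorem InD_gen (K : KeySys M) {U : Finset S} {n : ℤ} {ρ : S → ℝ} {a : ArtinGroup M}
    (h : K.IsClass U n ρ a) (hD : K.InD U n a) {r : S} (hr : r ∈ U) :
    K.InD U n (a * artinGen M r) := by
  intro t ht
  by_cases htr : t = r
  · subst htr
    exact (K.F1 U n a h.ext hD t ht).1
  · intro m hm
    rw [K.inv m r t a (Ne.symm htr)]
    exact hD t ht m hm

/-- `D` is closed under right multiplication by `A_U⁺` -/
theorem InD_PM (K : KeySys M) {U : Finset S} {n : ℤ} {ρ : S → ℝ} {a : ArtinGroup M}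
    (h : K.IsClass U n ρ a) (hD : K.InD U n a) {p : ArtinGroup M} (hp : p ∈ PM M U) :
    K.InD U n (a * p) := by
  refine Gar.PM_induction_right (T := (U : Set S)) (p := fun p => K.InD U n (a * p))
    (by rw [mul_one]; exact hD) ?_ hp
  intro b hb t ht ih
  rw [← mul_assoc]
  exact InD_gen K (IsClass_inv_AP K h (PM_le_AP' hb)) ih (by exact_mod_cast ht)

/-- the apartment function of the chamber `b` -/
noncomputable def apt (K : KeyData M) (n : ℤ) (ρ : S → ℝ) (b : ArtinGroup M)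
    (w : M.Group) (t : S) : ℝ := K.d n t (b * tl M w) - ρ t

theorem wall_aux (K : KeySys M) {U : Finset S} {n : ℤ} {ρ : S → ℝ} {a : ArtinGroup M}
    (h : K.IsClass U n ρ a) (hD : K.InD U n a) {r : S} (hr : r ∈ U) :
    0 ≤ (K.d n r a - ρ r) + (K.d n r (a * artinGen M r) - ρ r) +
      ∑ t ∈ U.erase r, gram M r t * (K.d n t a - ρ t) := by
  have h1 := (K.F1 U n a h.ext hD r hr).2
  have h2 := h.slack_nonneg r hr
  unfold KeyData.slack at h2
  rw [← Finset.add_sum_erase U _ hr, gram_self] at h2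
  have e1 : ∑ t ∈ U.erase r, (- gram M r t) * K.d n t a =
      - ∑ t ∈ U.erase r, gram M r t * K.d n t a := by
    rw [← Finset.sum_neg_distrib]
    exact Finset.sum_congr rfl fun t ht => by ring
  have e2 : ∑ t ∈ U.erase r, gram M r t * (K.d n t a - ρ t) =
      ∑ t ∈ U.erase r, gram M r t * K.d n t a - ∑ t ∈ U.erase r, gram M r t * ρ t := by
    rw [← Finset.sum_sub_distrib]
    exact Finset.sum_congr rfl fun t _ => by ring
  rw [e1] at h1
  rw [e2]
  linarith

/-- the apartment function is wall-convex -/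
theorem apt_conv (K : KeySys M) {U : Finset S} {n : ℤ} {ρ : S → ℝ} {b : ArtinGroup M}
    (h : K.IsClass U n ρ b) (hD : K.InD U n b) :
    Apt.IsConv M.toCoxeterSystem U (apt K.toKeyData n ρ b) := by
  have hinv : ∀ (w : M.Group) (i j : S), i ≠ j →
      apt K.toKeyData n ρ b (w * M.simple i) j = apt K.toKeyData n ρ b w j := by
    intro w i j hij
    unfold apt
    rcases Gar.len_mul_simple w i with h1 | h1
    · rw [show tl M (w * M.simple i) = tl M w * artinGen M i from
        Gar.tl_mul_simple (by omega), ← mul_assoc, K.inv _ i j _ hij]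
    · rw [show tl M w = tl M (w * M.simple i) * artinGen M i from
        Gar.tl_eq_mul_of_desc (by omega), ← mul_assoc, K.inv _ i j _ hij]
  refine ⟨fun w hw i hi j hj hij => hinv w i j hij, fun w hw i hi => ?_⟩
  have key : ∀ w ∈ WP M U, len M w < len M (w * M.simple i) →
      0 ≤ apt K.toKeyData n ρ b w i + apt K.toKeyData n ρ b (w * M.simple i) i +
        ∑ t ∈ U.erase i, gram M i t * apt K.toKeyData n ρ b w t := by
    intro w hw hlt
    have h1 := wall_aux K (IsClass_inv_AP K h (PM_le_AP' (tl_mem_PM' hw)))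
      (InD_PM K h hD (tl_mem_PM' hw)) hi
    unfold apt
    rw [show tl M (w * M.simple i) = tl M w * artinGen M i from Gar.tl_mul_simple hlt,
      ← mul_assoc]
    exact h1
  rw [← Finset.add_sum_erase U _ hi, gram_self]
  show 0 ≤ apt K.toKeyData n ρ b (w * M.simple i) i - _ + _
  rcases Gar.len_mul_simple w i with h1 | h1
  · have h2 := key w hw (by omega)
    linarith
  · have hw2 : w * M.simple i ∈ WP M U :=
      mul_mem hw (Subgroup.subset_closure ⟨i, by exact_mod_cast hi, rfl⟩)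
    have h2 := key (w * M.simple i) hw2 (by
      rw [mul_assoc, Gar.simple_mul_self, mul_one]; omega)
    rw [mul_assoc, Gar.simple_mul_self, mul_one] at h2
    have e : ∑ t ∈ U.erase i, gram M i t * apt K.toKeyData n ρ b (w * M.simple i) t =
        ∑ t ∈ U.erase i, gram M i t * apt K.toKeyData n ρ b w t :=
      Finset.sum_congr rfl fun t ht => by rw [hinv w i t (Finset.ne_of_mem_erase ht).symm]
    rw [e] at h2
    linarith

theorem Neg_iff_apt (K : KeySys M) {U : Finset S} {n : ℤ} {ρ : S → ℝ} {b : ArtinGroup M}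
    (h : K.IsClass U n ρ b) (hD : K.InD U n b) {w : M.Group} (hw : w ∈ WP M U) {t : S}
    (ht : t ∈ U) : K.Neg n ρ t (b * tl M w) ↔ apt K.toKeyData n ρ b w t < 0 := by
  unfold KeyData.Neg apt
  rw [sub_neg]
  exact ⟨fun h1 => h1.2, fun h1 => ⟨InD_PM K h hD (tl_mem_PM' hw) t ht, h1⟩⟩

theorem Zero_iff_apt (K : KeySys M) {U : Finset S} {n : ℤ} {ρ : S → ℝ} {b : ArtinGroup M}
    (h : K.IsClass U n ρ b) (hD : K.InD U n b) {w : M.Group} (hw : w ∈ WP M U) {t : S}
    (ht : t ∈ U) : K.Zero n ρ t (b * tl M w) ↔ apt K.toKeyData n ρ b w t = 0 := by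
  unfold KeyData.Zero apt
  rw [sub_eq_zero]
  exact ⟨fun h1 => h1.2, fun h1 => ⟨InD_PM K h hD (tl_mem_PM' hw) t ht, h1⟩⟩

/-! ### steps -/

theorem Step.symm' {P : S → ArtinGroup M → Prop} {U : Finset S} {x y : S × ArtinGroup M}
    (h : Step P U x y) : Step P U y x := by
  cases h with
  | chamber s t a hs ht h1 h2 => exact Step.chamber t s a ht hs h2 h1
  | up s t a hs ht hst h1 => exact Step.down s t a hs ht hst h1
  | down s t a hs ht hst h1 => exact Step.up s t a hs ht hst h1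

theorem step_equiv (P : S → ArtinGroup M → Prop) (U : Finset S) :
    Equivalence (Relation.ReflTransGen (Step P U)) := by
  refine ⟨fun x => Relation.ReflTransGen.refl, fun {x y} h => ?_, fun h h' => h.trans h'⟩
  induction h with
  | refl => exact Relation.ReflTransGen.refl
  | tail _ h2 ih => exact Relation.ReflTransGen.head (Step.symm' h2) ih

/-- chains of `P`-vertices in the apartment of `b` are paths of `P`-vertices of `Δ_U` -/
theorem path_of_chain {P : S → ArtinGroup M → Prop} {U : Finset S}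
    (b : ArtinGroup M) {Q : M.Group → S → Prop}
    (hQ : ∀ w ∈ WP M U, ∀ t ∈ U, Q w t → P t (b * tl M w)) {x y : M.Group × S}
    (h : Apt.Chain M.toCoxeterSystem U Q x y) :
    Relation.ReflTransGen (Step P U) (x.2, b * tl M x.1) (y.2, b * tl M y.1) := by
  refine h.elim (r := fun x y => Relation.ReflTransGen (Step P U) (x.2, b * tl M x.1)
    (y.2, b * tl M y.1)) ⟨fun x => Relation.ReflTransGen.refl,
      fun {x y} h => (step_equiv P U).symm h, fun h h' => h.trans h'⟩ ?_
  rintro ⟨w, s⟩ ⟨w', s'⟩ ⟨⟨h1, h2, h3, h4⟩, h5, h6, h7⟩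
  simp only at h1 h2 h3 h4 h5 h6 h7 ⊢
  rcases h7 with h7 | ⟨h7, j, hj, hjs, h8⟩
  · subst h7
    exact Relation.ReflTransGen.single (Step.chamber _ _ _ h3 h4 (hQ w h1 s h3 h5)
      (hQ w h1 s' h4 h6))
  · subst h7
    change w' = w * M.simple j at h8
    subst h8
    rcases Gar.len_mul_simple w j with h9 | h9
    · have e : tl M (w * M.simple j) = tl M w * artinGen M j := Gar.tl_mul_simple (by omega)
      rw [e, ← mul_assoc]
      exact Relation.ReflTransGen.single (Step.up j s _ hj h3 hjs (hQ w h1 s h3 h5))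
    · have e : tl M w = tl M (w * M.simple j) * artinGen M j := Gar.tl_eq_mul_of_desc (by omega)
      have h10 := Relation.ReflTransGen.single (Step.down (P := P) (U := U) j s
        (b * tl M (w * M.simple j)) hj h3 hjs (hQ _ h2 s h3 h6))
      rw [e, ← mul_assoc]
      exact h10

/-- moving a vertex inside its coset -/
theorem path_PM {P : S → ArtinGroup M → Prop} {U : Finset S} {t : S} (ht : t ∈ U)
    (hP : ∀ s ∈ U, s ≠ t → ∀ a, P t a → P t (a * artinGen M s)) {a p : ArtinGroup M}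
    (hp : p ∈ PM M (U.erase t)) (h : P t a) :
    P t (a * p) ∧ Relation.ReflTransGen (Step P U) (t, a) (t, a * p) := by
  refine Gar.PM_induction_right (T := ((U.erase t : Finset S) : Set S))
    (p := fun p => P t (a * p) ∧ Relation.ReflTransGen (Step P U) (t, a) (t, a * p))
    (by rw [mul_one]; exact ⟨h, Relation.ReflTransGen.refl⟩) ?_ hp
  intro b hb s hs ih
  have hs' := Finset.mem_erase.1 (Finset.mem_coe.1 hs)
  rw [← mul_assoc]
  exact ⟨hP s hs'.2 hs'.1 _ ih.1, ih.2.tail (Step.up s t _ hs'.2 ht hs'.1 ih.1)⟩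

theorem Neg_gen (K : KeySys M) {n : ℤ} {ρ : S → ℝ} {t s : S} (hst : s ≠ t)
    (a : ArtinGroup M) : K.Neg n ρ t (a * artinGen M s) ↔ K.Neg n ρ t a := by
  unfold KeyData.Neg KeyData.Van
  simp only [K.inv _ s t a hst]

theorem Zero_gen (K : KeySys M) {n : ℤ} {ρ : S → ℝ} {t s : S} (hst : s ≠ t)
    (a : ArtinGroup M) : K.Zero n ρ t (a * artinGen M s) ↔ K.Zero n ρ t a := by
  unfold KeyData.Zero KeyData.Van
  simp only [K.inv _ s t a hst]

/-- every vertex with vanishing higher cohomology has a representative in `D` -/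
theorem exists_rep (K : KeySys M) {U : Finset S} {n : ℤ} {ρ : S → ℝ} {a : ArtinGroup M}
    (hU : Spherical M U) (h : K.IsClass U n ρ a) {t : S} (ht : t ∈ U)
    (hv : K.Van n t a) : ∃ p ∈ PM M (U.erase t), K.InD U n (a * p) := by
  have hext : K.Ext (U.erase t) n a := by
    intro r hr
    have hr' := Finset.mem_erase.1 hr
    refine ⟨fun s hs hrs => ?_, (h.ext r hr'.2).2⟩
    by_cases hst : s = t
    · subst hst
      exact hv
    · exact (h.ext r hr'.2).1 s (fun h' => hs (Finset.mem_erase.2 ⟨hst, h'⟩)) hrs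
  obtain ⟨p, hp, hD⟩ := K.F4 (U.erase t) n a (hU.subset (Finset.erase_subset _ _)) hext
  refine ⟨p, hp, fun r hr => ?_⟩
  by_cases hrt : r = t
  · subst hrt
    exact (Van_inv_AP K (Finset.notMem_erase r U) _ a (PM_le_AP' hp)).2 hv
  · exact hD r (Finset.mem_erase.2 ⟨hrt, hr⟩)

/-- two chambers of `D` in one coset have a common lower bound in `D` -/
theorem exists_meet (K : KeySys M) {U : Finset S} {n : ℤ} {ρ : S → ℝ}
    {a a₁ a₂ : ArtinGroup M} (hU : Spherical M U) (h : K.IsClass U n ρ a)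
    (h1 : a⁻¹ * a₁ ∈ AP M U) (h2 : a⁻¹ * a₂ ∈ AP M U) (hD1 : K.InD U n a₁)
    (hD2 : K.InD U n a₂) :
    ∃ c, a⁻¹ * c ∈ AP M U ∧ K.InD U n c ∧ c⁻¹ * a₁ ∈ PM M U ∧ c⁻¹ * a₂ ∈ PM M U := by
  haveI : Finite (Gar.WP M (U : Set S)) := hU
  have h3 : a₁⁻¹ * a₂ ∈ Gar.AP M (U : Set S) := by
    have e : a₁⁻¹ * a₂ = (a⁻¹ * a₁)⁻¹ * (a⁻¹ * a₂) := by group
    rw [e]
    exact mul_mem (inv_mem h1) h2
  obtain ⟨c, hc1, hc2, hc3⟩ := Gar.exists_max_lower h3
  have hc : a⁻¹ * c ∈ AP M U := by
    have e : a⁻¹ * c = (a⁻¹ * a₁) * (c⁻¹ * a₁)⁻¹ := by group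
    rw [e]
    exact mul_mem h1 (inv_mem (PM_le_AP' hc1))
  refine ⟨c, hc, ?_, hc1, hc2⟩
  by_contra hnD
  have hcl := IsClass_inv_AP K h hc
  rw [mul_inv_cancel_left] at hcl
  obtain ⟨r, hr, hr'⟩ := K.F3 U n c hcl.ext hnD
  refine hc3 r (by exact_mod_cast hr) ⟨?_, ?_⟩
  · obtain ⟨b', hb', he⟩ := hr' _ hc1 (by rw [mul_inv_cancel_left]; exact hD1)
    rw [he, inv_mul_cancel_left]; exact hb'
  · obtain ⟨b', hb', he⟩ := hr' _ hc2 (by rw [mul_inv_cancel_left]; exact hD2)
    rw [he, inv_mul_cancel_left]; exact hb'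

end Vale.Agent.P203.FoldL1
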