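import Vale.Agent.P203.Fold.HSys
import Vale.Agent.P203.Mod.LemmaN
import Vale.Agent.P203.Gar.Delta

/-! P203, block FOLD-L2, part 2: the fields `F1`, `F2`, `F3`, `F4` of `KeySys`. -/

set_option linter.all false

namespace Vale.Agent.P203.Fold

open Vale.Agent.P203 Vale.Agent.P203.Cox Vale.Agent.P203.Mod Module

variable {S C X Λ : Type} [Fintype S] [DecidableEq S] [DecidableEq C] [Fintype X] [DecidableEq X]
  [Fintype Λ] [DecidableEq Λ] {k : Type} [Field k]
variable {Γ : FGraph C X Λ} {M : CoxeterMatrix S} {col : S → C}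

theorem zero_of_i_surj {V : PMod k Γ} (hV : V.Nilp) (P : X → Prop)
    (h1 : ∀ x, P x → Function.Surjective (V.i x))
    (h2 : ∀ x, P x → ∀ p : Γ.Nb x, ¬ P p.1.1 → Subsingleton (V.V p.1.1)) :
    ∀ x, P x → Subsingleton (V.V x) := by
  obtain ⟨F, L, h0, hL, hF⟩ := PMod.nilp_iff_filtration.1 hV
  have key : ∀ j x, P x → F j x = ⊤ := by
    intro j
    induction j with
    | zero => exact fun x _ => h0 x
    | succ j ih =>
      intro x hx
      rw [eq_top_iff]
      intro v _
      obtain ⟨n, rfl⟩ := h1 x hx v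
      rw [PMod.i_apply]
      refine Submodule.sum_mem _ fun p _ => hF j _ _ _ (Γ.symm p.2) _ ?_
      by_cases hp : P p.1.1
      · rw [ih _ hp]; exact Submodule.mem_top
      · haveI := h2 x hx p hp
        rw [Subsingleton.elim (n p) 0]
        exact Submodule.zero_mem _
  intro x hx
  have h3 := key L x hx
  rw [hL] at h3
  exact (Submodule.subsingleton_iff k).1 (subsingleton_of_bot_eq_top h3)

/-- adjacent fibres have `m ≠ 2` -/
theorem adj_ne (w : Weights Γ col M) {x y : X} {l : Λ} (h : Γ.adj x y l = true) {s t : S}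
    (hs : Γ.π x = col s) (ht : Γ.π y = col t) : M s t ≠ 2 := by
  intro h2
  have hst : s ≠ t := fun e => Γ.indep h (by rw [hs, ht, e])
  have h1 := w.eig s t hst y ht
  have h3 : gram M s t = 0 := by
    unfold gram
    rw [h2]; simp
  rw [h3, neg_zero, zero_mul] at h1
  have h4 : 0 < ∑ x' : X, ∑ l' : Λ,
      (if Γ.π x' = col s ∧ Γ.adj x' y l' = true then w.η x' else 0) := by
    refine Finset.sum_pos' (fun x' _ => Finset.sum_nonneg fun l' _ => ?_)
      ⟨x, Finset.mem_univ _, Finset.sum_pos' (fun l' _ => ?_) ⟨l, Finset.mem_univ _, ?_⟩⟩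
    · split_ifs
      · exact (w.pos x').le
      · exact le_rfl
    · split_ifs
      · exact (w.pos x).le
      · exact le_rfl
    · rw [if_pos ⟨hs, h⟩]; exact w.pos x
  linarith

theorem dv_isom (w : Weights Γ col M) {V W : PMod k Γ} (h : PMod.Isom V W) (s : S) :
    dv w V s = dv w W s := by
  rw [dv_congr w fun x => PMod.dim_eq_of_isom h x]

theorem dv_le_of_surj (w : Weights Γ col M) {V W : PMod k Γ} [V.FD]
    (h : ∃ f : PMod.Hom V W, f.Surj) (s : S) : dv w W s ≤ dv w V s := by
  obtain ⟨f, hf⟩ := h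
  exact dv_mono w (fun x => PMod.dim_le_of_surj hf x) s

/-! ### the key data -/

/-- the key data of `H` -/
noncomputable def keyData (w : Weights Γ col M) (H : ArtinGroup M → ℤ → PMod k Γ) :
    Spec.KeyData M where
  d n t a := dv w (H a n) t
  fr n r := frc w (H 1 n) r

section sys

variable (w : Weights Γ col M) {H : ArtinGroup M → ℤ → PMod k Γ} (hH : IsHSys M Γ col H)
include hH

theorem dim_frame {x : X} (hx : ∀ s, Γ.π x ≠ col s) (a : ArtinGroup M) (n : ℤ) :
    (H a n).dim x = (H 1 n).dim x := by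
  have key : ∀ g : ArtinGroup M, ∀ b, (H (b * g) n).dim x = (H b n).dim x := by
    intro g
    have hg : g ∈ Subgroup.closure (Set.range (PresentedGroup.of (rels := braidRelators M))) := by
      rw [PresentedGroup.closure_range_of]; trivial
    induction hg using Subgroup.closure_induction with
    | mem x' hx' =>
      obtain ⟨s, rfl⟩ := hx'
      exact fun b => hH.inv b n s x (hx s)
    | one => intro b; rw [mul_one]
    | mul x' y' _ _ h1 h2 => intro b; rw [← mul_assoc, h2, h1]
    | inv x' _ h1 =>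
      intro b
      have := h1 (b * x'⁻¹)
      rw [inv_mul_cancel_right] at this
      exact this.symm
  have := key a 1
  rwa [one_mul] at this

theorem frc_eq (a : ArtinGroup M) (n : ℤ) (r : S) : frc w (H a n) r = frc w (H 1 n) r :=
  frc_congr w (fun x hx => dim_frame hH (fun s hs => hx ⟨s, hs⟩) a n) r

theorem van_iff (n : ℤ) (t : S) (a : ArtinGroup M) : (keyData w H).Van n t a ↔
    ∀ m, n < m → ∀ x, Γ.π x = col t → Subsingleton ((H a m).V x) := by
  refine forall_congr' fun m => forall_congr' fun _ => ?_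
  change dv w (H a m) t = 0 ↔ _
  rw [dv_eq_zero_iff]
  exact forall_congr' fun x => forall_congr' fun _ => (subsingleton_iff_dim (hH.fd a m) x).symm

theorem d_inv (n : ℤ) {s t : S} (a : ArtinGroup M) (h : s ≠ t) :
    dv w (H (a * artinGen M s) n) t = dv w (H a n) t := by
  rw [dv_apply, dv_apply]
  refine Finset.sum_congr rfl fun x _ => ?_
  split_ifs with hx
  · rw [hH.inv a n s x (by rw [hx]; exact fun h' => h (w.inj h').symm)]
  · rfl

theorem ext_mul {U : Finset S} {n : ℤ} {a : ArtinGroup M} (h : (keyData w H).Ext U n a) {r : S}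
    (hr : r ∈ U) : (keyData w H).Ext U n (a * artinGen M r) := by
  intro r' hr'
  refine ⟨fun s hs hadj m hm => ?_, (h r' hr').2⟩
  have := (h r' hr').1 s hs hadj m hm
  change dv w (H a m) s = 0 at this
  change dv w (H (a * artinGen M r) m) s = 0
  rw [d_inv w hH m a (by rintro rfl; exact hs hr), this]

omit hH in
theorem ext_mono {U : Finset S} {n m : ℤ} (hnm : n ≤ m) {a : ArtinGroup M}
    (h : (keyData w H).Ext U n a) : (keyData w H).Ext U m a := fun r hr =>
  ⟨fun s hs hadj m' hm' => (h r hr).1 s hs hadj m' (lt_of_le_of_lt hnm hm'),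
    fun m' hm' => (h r hr).2 m' (lt_of_le_of_lt hnm hm')⟩

/-- the neighbours outside `U` vanish above degree `n` -/
theorem nb_out {U : Finset S} {n : ℤ} {a : ArtinGroup M} (h : (keyData w H).Ext U n a) {r : S}
    (hr : r ∈ U) {x : X} (hx : Γ.π x = col r) (p : Γ.Nb x) (hp : ∀ t ∈ U, Γ.π p.1.1 ≠ col t)
    {m : ℤ} (hm : n < m) : Subsingleton ((H a m).V p.1.1) := by
  by_cases hc : ∃ t, Γ.π p.1.1 = col t
  · obtain ⟨t, ht⟩ := hc
    have htU : t ∉ U := fun h' => hp t h' ht
    have hrt : r ≠ t := by rintro rfl; exact htU hr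
    have h1 := (h r hr).1 t htU ⟨hrt, adj_ne w p.2 hx ht⟩
    exact (van_iff w hH n t a).1 h1 m hm _ ht
  · have h1 : frc w (H 1 m) r = 0 := (h r hr).2 m hm
    rw [← frc_eq w hH a] at h1
    unfold frc at h1
    rw [Finset.sum_eq_zero_iff_of_nonneg] at h1
    · have h2 := h1 p.1.1 (Finset.mem_univ _)
      rw [if_neg hc, mul_eq_zero] at h2
      rw [subsingleton_iff_dim (hH.fd a m)]
      rcases h2 with h2 | h2
      · exfalso
        have h4 : 0 < ∑ x' : X, ∑ l' : Λ,
            (if Γ.π x' = col r ∧ Γ.adj x' p.1.1 l' = true then w.η x' else 0) := by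
          refine Finset.sum_pos' (fun x' _ => Finset.sum_nonneg fun l' _ => ?_)
            ⟨x, Finset.mem_univ _, Finset.sum_pos' (fun l' _ => ?_)
              ⟨p.1.2, Finset.mem_univ _, ?_⟩⟩
          · split_ifs
            · exact (w.pos x').le
            · exact le_rfl
          · split_ifs
            · exact (w.pos x).le
            · exact le_rfl
          · rw [if_pos ⟨hx, p.2⟩]; exact w.pos x
        linarith
      · exact_mod_cast h2
    · intro y _
      split_ifs
      · exact le_rfl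
      · refine mul_nonneg (Finset.sum_nonneg fun x' _ => Finset.sum_nonneg fun l' _ => ?_)
          (Nat.cast_nonneg _)
        split_ifs
        · exact (w.pos x').le
        · exact le_rfl

theorem nb_all {U : Finset S} {n : ℤ} {a : ArtinGroup M} (h : (keyData w H).Ext U n a)
    (hD : (keyData w H).InD U n a) {r : S} (hr : r ∈ U) {x : X} (hx : Γ.π x = col r)
    (p : Γ.Nb x) {m : ℤ} (hm : n < m) : Subsingleton ((H a m).V p.1.1) := by
  by_cases hp : ∃ t ∈ U, Γ.π p.1.1 = col t
  · obtain ⟨t, htU, ht⟩ := hp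
    exact (van_iff w hH n t a).1 (hD t htU) m hm _ ht
  · push Not at hp
    exact nb_out w hH h hr hx p hp hm

theorem step_isom {U : Finset S} {n : ℤ} {a : ArtinGroup M} (hD : (keyData w H).InD U n a)
    {r : S} (hr : r ∈ U) {m : ℤ} (hm : n ≤ m) :
    PMod.Isom (H (a * artinGen M r) m) (PMod.C (col r) (H a m)) :=
  hH.step a m r fun x hx => (van_iff w hH n r a).1 (hD r hr) (m + 1) (by omega) x hx

theorem van_gen {U : Finset S} {n : ℤ} {a : ArtinGroup M} (h : (keyData w H).Ext U n a)
    (hD : (keyData w H).InD U n a) {r : S} (hr : r ∈ U) :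
    (keyData w H).Van n r (a * artinGen M r) := by
  rw [van_iff w hH]
  intro m hm x hx
  rw [subsingleton_iff_of_isom (step_isom w hH hD hr hm.le) x]
  haveI : Subsingleton ((H a m).N x) := ⟨fun f g => funext fun p => by
    haveI := nb_all w hH h hD hr hx p hm
    exact Subsingleton.elim _ _⟩
  exact ((H a m).Cpr_surj hx).subsingleton

theorem inD_gen {U : Finset S} {n : ℤ} {a : ArtinGroup M} (h : (keyData w H).Ext U n a)
    (hD : (keyData w H).InD U n a) {r : S} (hr : r ∈ U) :
    (keyData w H).InD U n (a * artinGen M r) := by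
  intro t ht
  by_cases hrt : r = t
  · subst hrt; exact van_gen w hH h hD hr
  · intro m hm
    have := hD t ht m hm
    change dv w (H a m) t = 0 at this
    change dv w (H (a * artinGen M r) m) t = 0
    rw [d_inv w hH m a hrt, this]

/-- the dimension formula (exact form of `F1`) -/
theorem d_gen {U : Finset S} {n : ℤ} {a : ArtinGroup M} (hD : (keyData w H).InD U n a) {r : S}
    (hr : r ∈ U) : dv w (H (a * artinGen M r) n) r + dv w (H a n) r =
      (keyData w H).wext U n a r + ∑ t ∈ U.erase r, (- gram M r t) * dv w (H a n) t +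
        kapj w (H a n) r := by
  haveI := hH.fd a n
  rw [dv_isom w (step_isom w hH hD hr le_rfl), dv_C_self w]
  unfold Spec.KeyData.wext
  change _ = frc w (H 1 n) r + ∑ s ∈ Uᶜ, (- gram M r s) * dv w (H a n) s + _ + _
  rw [frc_eq w hH a]
  have e : Finset.univ.erase r = Uᶜ ∪ U.erase r := by
    ext t
    simp only [Finset.mem_erase, Finset.mem_univ, and_true, Finset.mem_union, Finset.mem_compl]
    by_cases h1 : t ∈ U
    · simp [h1]
    · simp only [h1, not_false_eq_true, true_or, iff_true]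
      rintro rfl; exact h1 hr
  have hd : Disjoint Uᶜ (U.erase r) := by
    rw [Finset.disjoint_left]
    intro t h1 h2
    exact (Finset.mem_compl.1 h1) (Finset.mem_of_mem_erase h2)
  rw [e, Finset.sum_union hd]
  simp only [neg_mul, Finset.sum_neg_distrib]
  ring

theorem F1_main (U : Finset S) (n : ℤ) (a : ArtinGroup M) (h : (keyData w H).Ext U n a)
    (hD : (keyData w H).InD U n a) (r : S) (hr : r ∈ U) :
    (keyData w H).Van n r (a * artinGen M r) ∧
      (keyData w H).wext U n a r + ∑ t ∈ U.erase r, (- gram M r t) * (keyData w H).d n t a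
        ≤ (keyData w H).d n r a + (keyData w H).d n r (a * artinGen M r) := by
  refine ⟨van_gen w hH h hD hr, ?_⟩
  have h1 := d_gen w hH hD hr
  have h2 := kapj_nonneg w (H a n) r
  change _ + ∑ t ∈ U.erase r, (- gram M r t) * dv w (H a n) t ≤
    dv w (H a n) r + dv w (H (a * artinGen M r) n) r
  linarith

/-- along positive words in `U` -/
theorem word {U : Finset S} {n : ℤ} {a : ArtinGroup M} (h : (keyData w H).Ext U n a)
    (hD : (keyData w H).InD U n a) {ω : List S} (hω : ∀ i ∈ ω, i ∈ U) :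
    (keyData w H).Ext U n (a * pr M ω) ∧ (keyData w H).InD U n (a * pr M ω) ∧
      PMod.Isom (H (a * pr M ω) n) (Cw col ω (H a n)) := by
  induction ω generalizing a with
  | nil =>
    rw [pr_nil, mul_one]
    exact ⟨h, hD, PMod.Isom.refl _⟩
  | cons s ω ih =>
    have hs : s ∈ U := hω s (by simp)
    obtain ⟨h1, h2, h3⟩ := ih (a := a * artinGen M s) (ext_mul w hH h hs) (inD_gen w hH h hD hs)
      fun i hi => hω i (by simp [hi])
    rw [pr_cons, ← mul_assoc]
    refine ⟨h1, h2, h3.trans ?_⟩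
    exact (step_isom w hH hD hs le_rfl).Cw (ω.map col)

theorem F2_main (U : Finset S) (n : ℤ) (a : ArtinGroup M) (h : (keyData w H).Ext U n a)
    (hD : (keyData w H).InD U n a) (x : S) (hx : x ∈ U) (g : ArtinGroup M)
    (hg : g ∈ Spec.PM M U) (t : S) (ht : t ∈ U) :
    (keyData w H).d n t (a * artinGen M x * g) ≤
      (keyData w H).d n t (a * artinGen M x * artinGen M x * g) := by
  obtain ⟨ω, hω, rfl⟩ := exists_word hg
  change dv w (H (a * artinGen M x * pr M ω) n) t ≤
    dv w (H (a * artinGen M x * artinGen M x * pr M ω) n) t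
  have e1 : a * artinGen M x * pr M ω = a * pr M (x :: ω) := by rw [pr_cons, mul_assoc]
  have e2 : a * artinGen M x * artinGen M x * pr M ω = a * pr M (x :: x :: ω) := by
    rw [pr_cons, pr_cons, mul_assoc, mul_assoc]
  have h1 := (word w hH h hD (ω := x :: ω) (by
    intro i hi
    rcases List.mem_cons.1 hi with rfl | hi
    · exact hx
    · exact hω i hi)).2.2
  have h2 := (word w hH h hD (ω := x :: x :: ω) (by
    intro i hi
    rcases List.mem_cons.1 hi with rfl | hi
    · exact hx
    · rcases List.mem_cons.1 hi with rfl | hi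
      · exact hx
      · exact hω i hi)).2.2
  haveI := hH.fd a n
  rw [e1, e2, dv_isom w h1, dv_isom w h2]
  exact dv_mono w (fun y => PMod.dim_Cw_le (col x) (ω.map col) (H a n) y) t

theorem F3_main (hG : GInv k Γ col M) (U : Finset S) (n : ℤ) (a : ArtinGroup M)
    (h : (keyData w H).Ext U n a) (hD : ¬ (keyData w H).InD U n a) :
    ∃ r ∈ U, ∀ b ∈ Spec.PM M U, (keyData w H).InD U n (a * b) →
      ∃ b' ∈ Spec.PM M U, b = artinGen M r * b' := by
  -- the top degree
  obtain ⟨m₀, hm₀, hD₀, x₀, s₀, hs₀, hx₀, hns⟩ : ∃ m₀, n < m₀ ∧ (keyData w H).InD U m₀ a ∧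
      ∃ x₀ s₀, s₀ ∈ U ∧ Γ.π x₀ = col s₀ ∧ ¬ Subsingleton ((H a m₀).V x₀) := by
    obtain ⟨N, hN⟩ := hH.bdd a
    let A : Set ℤ := {m | n ≤ m ∧ (keyData w H).InD U m a}
    have hA : (max n N) ∈ A := ⟨le_max_left _ _, fun r hr => (van_iff w hH _ r a).2
      fun m hm x _ => hN m (lt_of_le_of_lt (le_max_right _ _) hm) x⟩
    obtain ⟨m₀, hm₀, hmin⟩ : ∃ m₀ ∈ A, ∀ m ∈ A, m₀ ≤ m := by
      obtain ⟨m, hm, hmin⟩ := Int.exists_least_of_bdd (P := fun m => m ∈ A)
        ⟨n, fun z hz => hz.1⟩ ⟨_, hA⟩
      exact ⟨m, hm, hmin⟩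
    have hne : m₀ ≠ n := by
      rintro rfl
      exact hD hm₀.2
    have hlt : n < m₀ := lt_of_le_of_ne hm₀.1 (Ne.symm hne)
    refine ⟨m₀, hlt, hm₀.2, ?_⟩
    by_contra hcon
    push Not at hcon
    have : m₀ - 1 ∈ A := by
      refine ⟨by omega, fun r hr => (van_iff w hH _ r a).2 fun m hm x hx => ?_⟩
      rcases eq_or_lt_of_le (show m₀ ≤ m by omega) with rfl | hlt'
      · exact hcon x r hr hx
      · exact (van_iff w hH _ r a).1 (hm₀.2 r hr) m hlt' x hx
    have := hmin _ this
    omega
  -- a simple quotient over `U`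
  obtain ⟨r, hr, x, hx, hi⟩ : ∃ r ∈ U, ∃ x, Γ.π x = col r ∧
      ¬ Function.Surjective ((H a m₀).i x) := by
    by_contra hcon
    push Not at hcon
    have := zero_of_i_surj (hH.nilp a m₀) (fun x => ∃ r ∈ U, Γ.π x = col r)
      (fun x ⟨r, hr, hx⟩ => hcon r hr x hx)
      (fun x ⟨r, hr, hx⟩ p hp => nb_out w hH h hr hx p (fun t ht h' => hp ⟨t, ht, h'⟩) hm₀)
      x₀ ⟨s₀, hs₀, hx₀⟩
    exact hns this
  obtain ⟨f, hf⟩ := PMod.exists_hom_sim hi
  refine ⟨r, hr, fun b hb hDb => ?_⟩
  obtain ⟨ω, hω, rfl⟩ := exists_word hb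
  have key : (Cw col ω (PMod.sim k Γ x)).IsZero := by
    intro y
    by_cases hy : ∃ t ∈ U, Γ.π y = col t
    · obtain ⟨t, ht, hyt⟩ := hy
      have h1 := (word w hH (ext_mono w hm₀.le h) hD₀ hω).2.2
      have h2 := (van_iff w hH n t _).1 (hDb t ht) m₀ hm₀ y hyt
      rw [subsingleton_iff_of_isom h1] at h2
      obtain ⟨g, hg⟩ := PMod.exists_Cw_surj (ω.map col) f hf
      haveI := (hg y).subsingleton
      exact fun v => Subsingleton.elim _ _
    · push Not at hy
      have h3 : (Cw col ω (PMod.sim k Γ x)).dim y = 0 := by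
        rw [PMod.dim_Cw_of_not_mem, PMod.sim_dim, if_neg]
        · rintro rfl; exact hy r hr hx
        · intro h'
          obtain ⟨t, ht, ht'⟩ := List.mem_map.1 h'
          exact hy t (hω t ht) ht'.symm
      haveI := (PMod.dim_eq_zero_iff _ _).1 h3
      exact fun v => Subsingleton.elim _ _
  obtain ⟨b', hb', e⟩ := lemmaN (U := (U : Set S)) hG w ω.length ω rfl (by simpa using hω) x r hx
    (by simpa using hr) key
  exact ⟨b', hb', e⟩

theorem F4_main (T : Finset S) (n : ℤ) (a : ArtinGroup M) (hT : Spherical M T)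
    (h : (keyData w H).Ext T n a) : ∃ p ∈ Spec.PM M T, (keyData w H).InD T n (a * p) := by
  haveI : Finite (Gar.WP M (T : Set S)) := hT
  -- one step
  have step : ∀ (m : ℤ) (b : ArtinGroup M), n ≤ m → (keyData w H).Ext T n b →
      (keyData w H).InD T (m + 1) b →
      (keyData w H).Ext T n (b * Gar.Dl M (T : Set S)) ∧
        (keyData w H).InD T m (b * Gar.Dl M (T : Set S)) := by
    intro m b hnm hb hDb
    have hDl : Gar.Dl M (T : Set S) ∈ Spec.PM M T := Gar.Dl_mem_PM
    obtain ⟨ω, hω, hω'⟩ := exists_word hDl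
    rw [← hω']
    have hb' := ext_mono w (show n ≤ m + 1 by omega) hb
    obtain ⟨_, h2, _⟩ := word w hH hb' hDb hω
    have hext : (keyData w H).Ext T n (b * pr M ω) := by
      have : ∀ (ω : List S), (∀ i ∈ ω, i ∈ T) → ∀ b, (keyData w H).Ext T n b →
          (keyData w H).Ext T n (b * pr M ω) := by
        intro ω
        induction ω with
        | nil => intro _ b hb; rw [pr_nil, mul_one]; exact hb
        | cons s ω ih =>
          intro hω b hb
          rw [pr_cons, ← mul_assoc]
          exact ih (fun i hi => hω i (by simp [hi])) _ (ext_mul w hH hb (hω s (by simp)))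
      exact this ω hω b hb
    refine ⟨hext, fun r hr => (van_iff w hH m r _).2 fun m' hm' x hx => ?_⟩
    rcases eq_or_lt_of_le (show m + 1 ≤ m' by omega) with rfl | hlt
    · refine zero_of_i_surj (hH.nilp _ (m + 1)) (fun x => ∃ r ∈ T, Γ.π x = col r) ?_ ?_ x
        ⟨r, hr, hx⟩
      · rintro y ⟨t, ht, hyt⟩
        -- `Δ = Δ' σ_t`
        have hD' : Gar.Dl M (T : Set S) * (artinGen M t)⁻¹ ∈ Spec.PM M T :=
          Gar.Dl_mul_inv_gen_mem (by simpa using ht)
        obtain ⟨ω', hω1, hω2⟩ := exists_word hD'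
        obtain ⟨_, h4, _⟩ := word w hH hb' hDb hω1
        have h5 := step_isom w hH h4 ht le_rfl
        have e : b * pr M ω' * artinGen M t = b * pr M ω := by
          rw [hω2, hω', mul_assoc, inv_mul_cancel_right]
        rw [e] at h5
        obtain ⟨f, hf⟩ := h5.symm
        intro v
        obtain ⟨u, rfl⟩ := (hf y).2 v
        obtain ⟨z, rfl⟩ := (H (b * pr M ω') (m + 1)).C_i_surj hyt u
        exact ⟨f.n y z, f.i_n y z⟩
      · rintro y ⟨t, ht, hyt⟩ p hp
        exact nb_out w hH hext ht hyt p (fun t' ht' h' => hp ⟨t', ht', h'⟩) (by omega)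
    · exact (van_iff w hH (m + 1) r _).1 (h2 r hr) m' hlt x hx
  have main : ∀ (j : ℕ) (b : ArtinGroup M), (keyData w H).Ext T n b →
      (keyData w H).InD T (n + j) b → ∃ p ∈ Spec.PM M T, (keyData w H).InD T n (b * p) := by
    intro j
    induction j with
    | zero =>
      intro b hb hDb
      refine ⟨1, one_mem _, ?_⟩
      rw [mul_one]
      simpa using hDb
    | succ j ih =>
      intro b hb hDb
      have e : n + ((j + 1 : ℕ) : ℤ) = (n + j) + 1 := by push_cast; ring
      rw [e] at hDb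
      obtain ⟨h1, h2⟩ := step (n + j) b (by omega) hb hDb
      obtain ⟨p, hp, hp'⟩ := ih _ h1 h2
      exact ⟨Gar.Dl M (T : Set S) * p, mul_mem Gar.Dl_mem_PM hp, by rwa [← mul_assoc]⟩
  obtain ⟨N, hN⟩ := hH.bdd a
  refine main (N - n).toNat a h fun r hr => (van_iff w hH _ r a).2 fun m hm x _ => hN m ?_ x
  have := Int.self_le_toNat (N - n)
  omega

end sys

end Vale.Agent.P203.Fold
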