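import Vale.Agent.P203.Fold.Key
import Vale.Agent.P203.Mod.UnfW

/-! P203, block FOLD-L2, part 4: the framed unfolding graph is framed. -/

set_option linter.all false

namespace Vale.Agent.P203.Fold

open Vale.Agent.P203 Vale.Agent.P203.Mod

variable {S : Type} [Fintype S] [DecidableEq S]

theorem framed_unfF (M : CoxeterMatrix S) : Framed (Unf.unfF M) (Sum.inl : S → S ⊕ S) := by
  intro s
  refine ⟨.inl (s, fun _ => 0), rfl, .inr (s, fun _ => 0), 0, ?_, ?_⟩
  · rw [Unf.unfF_adj]
    simp [Unf.nadjF]
  · intro t h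
    simp at h

end Vale.Agent.P203.Fold
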